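import Mathlib

/-!
# A small proof machine for the finite core of rid 50

Sets of colours are encoded as bit masks `< 1024`; a state is a pair of bit sets of masks
(known to be in `N`, known not to be in `N`).  Instructions are unit propagations along instances
of the axioms, case splits and symmetric reductions.
-/

namespace Crest.Agent.R050.CoreM

open Finset

/-- hypotheses of the core -/
structure Hyp (N : Finset (Fin 10) → Prop) : Prop where
  down : ∀ s t, N s → t ⊆ s → N t
  three : ∀ a b c, N a → N b → N c → a ∪ b ∪ c ≠ univ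
  disj : ∀ s t, N s → N t → s.card = 4 → t.card = 4 → ¬ Disjoint s t
  one : ∀ T K, N T → T.card = 4 → K.card = 3 → K ⊆ Tᶜ → N K ∨ N (Tᶜ \ K)
  par : ∀ T e, N T → T.card = 4 → e.card = 2 → e ⊆ Tᶜ → ∀ S : Finset (Fin 10),
    (∀ c, c ∈ S ↔ c ∈ Tᶜ \ e ∧ N (insert c e)) → Even S.card
  ext : ∀ T K, N T → T.card = 4 → K.card = 3 → K ⊆ Tᶜ → N K → ∃ i, i ∉ K ∧ N (insert i K)

theorem Hyp.map {N : Finset (Fin 10) → Prop} (h : Hyp N) (σ : Equiv.Perm (Fin 10)) :
    Hyp (fun s => N (s.map σ.toEmbedding)) where
  down s t hs ht := h.down _ _ hs (Finset.map_subset_map.2 ht)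
  three a b c ha hb hc hu := by
    apply h.three _ _ _ ha hb hc
    rw [← Finset.map_union, ← Finset.map_union, hu]
    simp
  disj s t hs ht cs ct hd := by
    apply h.disj _ _ hs ht (by simpa using cs) (by simpa using ct)
    exact (Finset.disjoint_map _).2 hd
  one T K hT cT cK hK := by
    have h1 : K.map σ.toEmbedding ⊆ (T.map σ.toEmbedding)ᶜ := by
      intro x hx
      simp only [Finset.mem_map_equiv, Finset.mem_compl] at hx ⊢
      have := hK hx
      simpa using this
    have h2 := h.one _ _ hT (by simpa using cT) (by simpa using cK) h1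
    have h3 : (T.map σ.toEmbedding)ᶜ \ K.map σ.toEmbedding = (Tᶜ \ K).map σ.toEmbedding := by
      ext x
      simp [Finset.mem_map_equiv]
    rwa [h3] at h2
  par T e hT cT ce he S hS := by
    have h1 : e.map σ.toEmbedding ⊆ (T.map σ.toEmbedding)ᶜ := by
      intro x hx
      simp only [Finset.mem_map_equiv, Finset.mem_compl] at hx ⊢
      have := he hx
      simpa using this
    have h2 := h.par _ _ hT (by simpa using cT) (by simpa using ce) h1 (S.map σ.toEmbedding)
    rw [Finset.card_map] at h2
    apply h2
    intro c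
    have h4 : insert c (e.map σ.toEmbedding) = (insert (σ.symm c) e).map σ.toEmbedding := by
      rw [Finset.map_insert]; simp
    rw [h4, Finset.mem_map_equiv, hS]
    simp [Finset.mem_map_equiv]
  ext T K hT cT cK hK hNK := by
    have h1 : K.map σ.toEmbedding ⊆ (T.map σ.toEmbedding)ᶜ := by
      intro x hx
      simp only [Finset.mem_map_equiv, Finset.mem_compl] at hx ⊢
      have := hK hx
      simpa using this
    obtain ⟨i, hi, hN⟩ := h.ext _ _ hT (by simpa using cT) (by simpa using cK) h1 hNK
    refine ⟨σ.symm i, ?_, ?_⟩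
    · simpa [Finset.mem_map_equiv] using hi
    · have h4 : insert i (K.map σ.toEmbedding) = (insert (σ.symm i) K).map σ.toEmbedding := by
        rw [Finset.map_insert]; simp
      rw [h4] at hN
      exact hN

/-- the set with mask `m` -/
def fs (m : ℕ) : Finset (Fin 10) := univ.filter (fun i => m.testBit i.val = true)

theorem mem_fs {m : ℕ} {i : Fin 10} : i ∈ fs m ↔ m.testBit i.val = true := by simp [fs]

/-- bit count -/
def pop (m : ℕ) : ℕ :=
  (if m.testBit 0 = true then 1 else 0) + ((if m.testBit 1 = true then 1 else 0) +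
  ((if m.testBit 2 = true then 1 else 0) + ((if m.testBit 3 = true then 1 else 0) +
  ((if m.testBit 4 = true then 1 else 0) + ((if m.testBit 5 = true then 1 else 0) +
  ((if m.testBit 6 = true then 1 else 0) + ((if m.testBit 7 = true then 1 else 0) +
  ((if m.testBit 8 = true then 1 else 0) + (if m.testBit 9 = true then 1 else 0)))))))))

theorem card_fs (m : ℕ) : (fs m).card = pop m := by
  rw [fs, Finset.card_filter]
  simp only [Fin.sum_univ_succ, pop]
  simp

/-- or over the ten colours -/
def orl (f : ℕ → ℕ) : ℕ :=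
  f 0 ||| (f 1 ||| (f 2 ||| (f 3 ||| (f 4 ||| (f 5 ||| (f 6 ||| (f 7 ||| (f 8 ||| f 9))))))))

theorem testBit_orl (f : ℕ → ℕ) (m : ℕ) :
    (orl f).testBit m = true ↔ ∃ i : Fin 10, (f i.val).testBit m = true := by
  simp only [orl, Nat.testBit_or, Bool.or_eq_true]
  constructor
  · rintro (h | h | h | h | h | h | h | h | h | h)
    exacts [⟨0, h⟩, ⟨1, h⟩, ⟨2, h⟩, ⟨3, h⟩, ⟨4, h⟩, ⟨5, h⟩, ⟨6, h⟩, ⟨7, h⟩, ⟨8, h⟩, ⟨9, h⟩]
  · rintro ⟨i, h⟩
    fin_cases i <;> simp_all

theorem fs_or (a b : ℕ) : fs (a ||| b) = fs a ∪ fs b := by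
  ext i; simp [mem_fs, Nat.testBit_or]

theorem fs_and (a b : ℕ) : fs (a &&& b) = fs a ∩ fs b := by
  ext i; simp [mem_fs, Nat.testBit_and]

theorem testBit_1023 (i : Fin 10) : (1023 : ℕ).testBit i.val = true := by
  revert i; decide

theorem fs_univ : fs 1023 = univ := by
  ext i; simp [mem_fs, testBit_1023]

theorem fs_zero : fs 0 = ∅ := by
  ext i; simp [mem_fs]

theorem fs_bit (b : ℕ) (i : Fin 10) : fs (b ||| 2 ^ i.val) = insert i (fs b) := by
  ext j
  simp only [mem_fs, Nat.testBit_or, Bool.or_eq_true, Finset.mem_insert, Nat.testBit_two_pow,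
    decide_eq_true_eq]
  constructor
  · rintro (h | h)
    · exact Or.inr h
    · exact Or.inl (Fin.ext h.symm)
  · rintro (h | h)
    · exact Or.inr (by rw [h])
    · exact Or.inl h

theorem disj_of_and {a b : ℕ} (h : a &&& b = 0) : Disjoint (fs a) (fs b) := by
  rw [Finset.disjoint_iff_inter_eq_empty, ← fs_and, h, fs_zero]

theorem mem_compl_xor {a b : ℕ} (h : a &&& b = 0) (i : Fin 10) :
    i ∈ fs (1023 ^^^ a ^^^ b) ↔ i ∈ (fs a)ᶜ \ fs b := by
  have h1 : ((a &&& b).testBit i.val) = false := by rw [h]; simp
  simp only [Nat.testBit_and] at h1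
  simp only [mem_fs, Nat.testBit_xor, testBit_1023, Finset.mem_sdiff, Finset.mem_compl]
  revert h1
  cases a.testBit i.val <;> cases b.testBit i.val <;> simp

theorem fs_compl_xor {a b : ℕ} (h : a &&& b = 0) : fs (1023 ^^^ a ^^^ b) = (fs a)ᶜ \ fs b := by
  ext i; exact mem_compl_xor h i

theorem subset_compl {a b : ℕ} (h : a &&& b = 0) : fs b ⊆ (fs a)ᶜ := by
  intro i hi
  rw [Finset.mem_compl]
  intro hi'
  exact (Finset.disjoint_left.1 (disj_of_and h)) hi' hi

theorem subset_of_and {a b : ℕ} (h : b &&& a = b) : fs b ⊆ fs a := by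
  rw [← h, fs_and]; exact Finset.inter_subset_right

/-- validity of a clause -/
def Sat (N : Finset (Fin 10) → Prop) (P Q : ℕ) : Prop :=
  (∃ m, P.testBit m = true ∧ N (fs m)) ∨ (∃ m, Q.testBit m = true ∧ ¬ N (fs m))

/-- clause of an axiom instance: `(ok, P, Q)` -/
def ax (k a b c : ℕ) : Bool × ℕ × ℕ :=
  match k with
  | 0 => (Nat.beq (b &&& a) b, 2 ^ b, 2 ^ a)
  | 1 => (Nat.beq (pop a) 4 && Nat.beq (pop b) 3 && Nat.beq (a &&& b) 0,
      2 ^ b ||| 2 ^ (1023 ^^^ a ^^^ b), 2 ^ a)
  | 2 => (Nat.beq (a ||| b ||| c) 1023, 0, 2 ^ a ||| 2 ^ b ||| 2 ^ c)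
  | 3 => (Nat.beq (pop a) 4 && Nat.beq (pop b) 4 && Nat.beq (a &&& b) 0, 0, 2 ^ a ||| 2 ^ b)
  | 4 => (Nat.beq (pop a) 4 && Nat.beq (pop b) 3 && Nat.beq (a &&& b) 0,
      orl (fun i => if a.testBit i = true then 2 ^ (b ||| 2 ^ i) else 0), 2 ^ a ||| 2 ^ b)
  | _ => (Nat.beq (pop a) 4 && Nat.beq (pop b) 2 && Nat.beq (a &&& b) 0 &&
        Nat.beq (c &&& (1023 ^^^ a ^^^ b)) c && Nat.beq (pop c % 2) 1,
      orl (fun i => if (1023 ^^^ a ^^^ b ^^^ c).testBit i = true then 2 ^ (b ||| 2 ^ i) else 0),
      2 ^ a ||| orl (fun i => if c.testBit i = true then 2 ^ (b ||| 2 ^ i) else 0))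

theorem tb (m : ℕ) : (2 ^ m).testBit m = true := by simp

theorem beq_iff {a b : ℕ} : Nat.beq a b = true ↔ a = b := by
  simp

theorem ax_sound {N : Finset (Fin 10) → Prop} (h : Hyp N) (k a b c : ℕ)
    (hok : (ax k a b c).1 = true) : Sat N (ax k a b c).2.1 (ax k a b c).2.2 := by
  match k with
  | 0 =>
    simp only [ax, beq_iff] at hok ⊢
    by_cases hN : N (fs a)
    · exact Or.inl ⟨b, tb b, h.down _ _ hN (subset_of_and hok)⟩
    · exact Or.inr ⟨a, tb a, hN⟩
  | 1 =>
    simp only [ax, beq_iff, Bool.and_eq_true] at hok ⊢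
    obtain ⟨⟨h1, h2⟩, h3⟩ := hok
    by_cases hN : N (fs a)
    · rcases h.one (fs a) (fs b) hN (by rw [card_fs, h1]) (by rw [card_fs, h2])
        (subset_compl h3) with hh | hh
      · exact Or.inl ⟨b, by simp [Nat.testBit_or], hh⟩
      · refine Or.inl ⟨1023 ^^^ a ^^^ b, by simp [Nat.testBit_or], ?_⟩
        rw [fs_compl_xor h3]; exact hh
    · exact Or.inr ⟨a, tb a, hN⟩
  | 2 =>
    simp only [ax, beq_iff] at hok ⊢
    by_contra hcon
    unfold Sat at hcon
    push Not at hcon
    have ha := hcon.2 a (by simp [Nat.testBit_or])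
    have hb := hcon.2 b (by simp [Nat.testBit_or])
    have hc := hcon.2 c (by simp [Nat.testBit_or])
    apply h.three _ _ _ ha hb hc
    rw [← fs_or, ← fs_or, hok, fs_univ]
  | 3 =>
    simp only [ax, beq_iff, Bool.and_eq_true] at hok ⊢
    obtain ⟨⟨h1, h2⟩, h3⟩ := hok
    by_contra hcon
    unfold Sat at hcon
    push Not at hcon
    have ha := hcon.2 a (by simp [Nat.testBit_or])
    have hb := hcon.2 b (by simp [Nat.testBit_or])
    exact h.disj _ _ ha hb (by rw [card_fs, h1]) (by rw [card_fs, h2]) (disj_of_and h3)
  | 4 =>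
    simp only [ax, beq_iff, Bool.and_eq_true] at hok ⊢
    obtain ⟨⟨h1, h2⟩, h3⟩ := hok
    by_contra hcon
    unfold Sat at hcon
    push Not at hcon
    have ha := hcon.2 a (by simp [Nat.testBit_or])
    have hb := hcon.2 b (by simp [Nat.testBit_or])
    obtain ⟨i, hi, hN⟩ := h.ext (fs a) (fs b) ha (by rw [card_fs, h1]) (by rw [card_fs, h2])
      (subset_compl h3) hb
    by_cases hia : i ∈ fs a
    · refine hcon.1 (b ||| 2 ^ i.val) ?_ (by rw [fs_bit]; exact hN)
      rw [testBit_orl]
      exact ⟨i, by rw [if_pos (mem_fs.1 hia)]; exact tb _⟩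
    · refine h.disj _ _ ha hN (by rw [card_fs, h1])
        (by rw [Finset.card_insert_of_notMem hi, card_fs, h2]) ?_
      rw [Finset.disjoint_insert_right]
      exact ⟨hia, disj_of_and h3⟩
  | (n + 5) =>
    simp only [ax, beq_iff, Bool.and_eq_true] at hok ⊢
    obtain ⟨⟨⟨⟨h1, h2⟩, h3⟩, h4⟩, h5⟩ := hok
    by_contra hcon
    unfold Sat at hcon
    push Not at hcon
    have ha := hcon.2 a (by simp [Nat.testBit_or])
    have hc : ∀ i : Fin 10, i ∈ fs c → N (insert i (fs b)) := by
      intro i hi
      have := hcon.2 (b ||| 2 ^ i.val) (by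
        rw [Nat.testBit_or, Bool.or_eq_true, testBit_orl]
        exact Or.inr ⟨i, by rw [if_pos (mem_fs.1 hi)]; exact tb _⟩)
      rwa [fs_bit] at this
    have hd : ∀ i : Fin 10, i ∈ fs (1023 ^^^ a ^^^ b ^^^ c) → ¬ N (insert i (fs b)) := by
      intro i hi
      have := hcon.1 (b ||| 2 ^ i.val) (by
        rw [testBit_orl]
        exact ⟨i, by rw [if_pos (mem_fs.1 hi)]; exact tb _⟩)
      rwa [fs_bit] at this
    have h6 : Even (fs c).card := by
      apply h.par (fs a) (fs b) ha (by rw [card_fs, h1]) (by rw [card_fs, h2])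
        (subset_compl h3)
      intro i
      rw [← mem_compl_xor h3]
      have h4' : ((c &&& (1023 ^^^ a ^^^ b)).testBit i.val) = c.testBit i.val := by rw [h4]
      rw [Nat.testBit_and] at h4'
      constructor
      · intro hi
        refine ⟨?_, hc i hi⟩
        rw [mem_fs] at hi ⊢
        rw [hi] at h4'
        simpa using h4'
      · rintro ⟨hi, hN⟩
        by_contra hic
        refine hd i ?_ hN
        rw [mem_fs] at hi hic ⊢
        rw [Nat.testBit_xor, hi]
        simpa using hic
    rw [card_fs] at h6
    rw [Nat.even_iff] at h6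
    omega

/-- instructions -/
inductive I
  /-- conflict with an axiom instance -/
  | C (k a b c : ℕ)
  /-- propagate a positive literal -/
  | P (k a b c m : ℕ)
  /-- propagate a negative literal -/
  | Q (k a b c m : ℕ)
  /-- case split -/
  | S (m : ℕ)
  /-- symmetric reduction to an earlier lemma -/
  | Y (l : ℕ) (sw : List (ℕ × ℕ))

/-- swap two colours in a mask -/
def swapMask (a b m : ℕ) : ℕ :=
  if (m.testBit a == m.testBit b) = true then m else m ^^^ 2 ^ a ^^^ 2 ^ b

/-- apply a list of swaps -/
def app : List (ℕ × ℕ) → ℕ → ℕ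
  | [], m => m
  | (a, b) :: l, m => app l (swapMask a b m)

/-- remove from `P` the elements of `B` -/
def rem (P B : ℕ) : ℕ := P ^^^ (P &&& B)

theorem testBit_rem {P B m : ℕ} : (rem P B).testBit m = true ↔
    P.testBit m = true ∧ B.testBit m = false := by
  simp only [rem, Nat.testBit_xor, Nat.testBit_and]
  cases P.testBit m <;> cases B.testBit m <;> simp

/-- the machine -/
def run (lems : List (List ℕ × List ℕ)) : List I → ℕ → ℕ → List (ℕ × ℕ) → Bool
  | [], _, _, _ => false
  | i :: is, A, B, stk =>
    match i with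
    | .C k a b c =>
      match ax k a b c with
      | (ok, P, Q) =>
        match ok && Nat.beq (rem P B) 0 && Nat.beq (rem Q A) 0 with
        | true => match stk with
          | [] => true
          | (A', B') :: stk' => run lems is A' B' stk'
        | false => false
    | .P k a b c m =>
      match ax k a b c with
      | (ok, P, Q) =>
        match ok && Nat.beq (rem P B) (2 ^ m) && Nat.beq (rem Q A) 0 with
        | true => run lems is (A ||| 2 ^ m) B stk
        | false => false
    | .Q k a b c m =>
      match ax k a b c with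
      | (ok, P, Q) =>
        match ok && Nat.beq (rem P B) 0 && Nat.beq (rem Q A) (2 ^ m) with
        | true => run lems is A (B ||| 2 ^ m) stk
        | false => false
    | .S m => run lems is (A ||| 2 ^ m) B ((A, B ||| 2 ^ m) :: stk)
    | .Y l sw =>
      match lems[l]? with
      | none => false
      | some (p, n) =>
        match sw.all (fun x => Nat.blt x.1 10 && Nat.blt x.2 10) &&
          p.all (fun m => A.testBit (app sw m)) && n.all (fun m => B.testBit (app sw m)) with
        | true => match stk with
          | [] => true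
          | (A', B') :: stk' => run lems is A' B' stk'
        | false => false

/-- consistency of a state with `N` -/
def Good (N : Finset (Fin 10) → Prop) (A B : ℕ) : Prop :=
  (∀ m, A.testBit m = true → N (fs m)) ∧ (∀ m, B.testBit m = true → ¬ N (fs m))

theorem Good.addA {N A B m} (h : Good N A B) (hm : N (fs m)) : Good N (A ||| 2 ^ m) B := by
  refine ⟨fun x hx => ?_, h.2⟩
  rw [Nat.testBit_or, Bool.or_eq_true, Nat.testBit_two_pow, decide_eq_true_eq] at hx
  rcases hx with hx | hx
  · exact h.1 x hx
  · rwa [← hx]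

theorem Good.addB {N A B m} (h : Good N A B) (hm : ¬ N (fs m)) : Good N A (B ||| 2 ^ m) := by
  refine ⟨h.1, fun x hx => ?_⟩
  rw [Nat.testBit_or, Bool.or_eq_true, Nat.testBit_two_pow, decide_eq_true_eq] at hx
  rcases hx with hx | hx
  · exact h.2 x hx
  · rwa [← hx]

/-- consistency of lists of literals -/
def GoodL (N : Finset (Fin 10) → Prop) (p n : List ℕ) : Prop :=
  (∀ m ∈ p, N (fs m)) ∧ (∀ m ∈ n, ¬ N (fs m))

theorem fs_swapMask (a b : Fin 10) (m : ℕ) :
    fs (swapMask a.val b.val m) = (fs m).map (Equiv.swap a b).toEmbedding := by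
  ext i
  rw [Finset.mem_map_equiv, Equiv.symm_swap, mem_fs, mem_fs, swapMask]
  by_cases hab : (m.testBit a.val == m.testBit b.val) = true
  · rw [if_pos hab]
    have hab' : m.testBit a.val = m.testBit b.val := by simpa using hab
    by_cases hia : i = a
    · subst hia; rw [Equiv.swap_apply_left, hab']
    · by_cases hib : i = b
      · subst hib; rw [Equiv.swap_apply_right, hab']
      · rw [Equiv.swap_apply_of_ne_of_ne hia hib]
  · rw [if_neg hab]
    have hab' : m.testBit a.val ≠ m.testBit b.val := by simpa using hab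
    have hne : a ≠ b := by rintro rfl; exact hab' rfl
    have hne' : a.val ≠ b.val := fun h => hne (Fin.ext h)
    rw [Nat.testBit_xor, Nat.testBit_xor, Nat.testBit_two_pow, Nat.testBit_two_pow]
    by_cases hia : i = a
    · subst hia; rw [Equiv.swap_apply_left]
      have h1 : decide (b.val = i.val) = false := by simpa using hne'.symm
      rw [h1]
      revert hab'
      cases m.testBit i.val <;> cases m.testBit b.val <;> simp
    · by_cases hib : i = b
      · subst hib; rw [Equiv.swap_apply_right]
        have h1 : decide (a.val = i.val) = false := by simpa using hne'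
        rw [h1]
        revert hab'
        cases m.testBit i.val <;> cases m.testBit a.val <;> simp
      · rw [Equiv.swap_apply_of_ne_of_ne hia hib]
        have h1 : decide (a.val = i.val) = false := by
          simpa using fun h => hia (Fin.ext h.symm)
        have h2 : decide (b.val = i.val) = false := by
          simpa using fun h => hib (Fin.ext h.symm)
        rw [h1, h2]; simp

theorem sym_sound (p n : List ℕ) (hl : ∀ N, Hyp N → GoodL N p n → False) :
    ∀ (sw : List (ℕ × ℕ)) (N : Finset (Fin 10) → Prop), Hyp N →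
      (∀ x ∈ sw, x.1 < 10 ∧ x.2 < 10) →
      (∀ m ∈ p, N (fs (app sw m))) → (∀ m ∈ n, ¬ N (fs (app sw m))) → False := by
  intro sw
  induction sw using List.reverseRecOn with
  | nil => intro N h _ hp hn; exact hl N h ⟨hp, hn⟩
  | append_singleton sw x ih =>
    intro N h hx hp hn
    obtain ⟨a, b⟩ := x
    have hab := hx (a, b) (by simp)
    have happ : ∀ (l : List (ℕ × ℕ)) (m : ℕ), app (l ++ [(a, b)]) m = swapMask a b (app l m) := by
      intro l
      induction l with
      | nil => intro m; rfl
      | cons y l ihl => intro m; obtain ⟨c, d⟩ := y; simp only [List.cons_append, app]; exact ihl _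
    have hfs : ∀ m, fs (swapMask a b m) =
        (fs m).map (Equiv.swap (⟨a, hab.1⟩ : Fin 10) ⟨b, hab.2⟩).toEmbedding :=
      fun m => fs_swapMask ⟨a, hab.1⟩ ⟨b, hab.2⟩ m
    apply ih (fun s => N (s.map (Equiv.swap (⟨a, hab.1⟩ : Fin 10) ⟨b, hab.2⟩).toEmbedding))
      (h.map _) (fun x hx' => hx x (by simp [hx']))
    · intro m hm
      have := hp m hm
      rw [happ, hfs] at this
      exact this
    · intro m hm
      have := hn m hm
      rw [happ, hfs] at this
      exact this

theorem run_sound (lems : List (List ℕ × List ℕ))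
    (hl : ∀ x ∈ lems, ∀ N, Hyp N → GoodL N x.1 x.2 → False)
    {N : Finset (Fin 10) → Prop} (h : Hyp N) :
    ∀ (is : List I) (A B : ℕ) (stk : List (ℕ × ℕ)), run lems is A B stk = true →
      ¬ Good N A B ∧ ∀ x ∈ stk, ¬ Good N x.1 x.2 := by
  intro is
  induction is with
  | nil => intro A B stk hr; simp [run] at hr
  | cons i is ih =>
    intro A B stk hr
    cases i with
    | C k a b c =>
      have hs := ax_sound h k a b c
      revert hr hs
      simp only [run]
      rcases hax : ax k a b c with ⟨ok, P, Q⟩
      simp only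
      intro hr hs
      split at hr
      · rename_i hc
        simp only [Bool.and_eq_true, beq_iff] at hc
        obtain ⟨⟨hok, hP⟩, hQ⟩ := hc
        have hsat := hs hok
        have hng : ¬ Good N A B := by
          intro hg
          rcases hsat with ⟨m, hm, hN⟩ | ⟨m, hm, hN⟩
          · have : (rem P B).testBit m = true := testBit_rem.2 ⟨hm, by
              by_contra hb
              exact hg.2 m (by simpa using hb) hN⟩
            rw [hP] at this; simp at this
          · have : (rem Q A).testBit m = true := testBit_rem.2 ⟨hm, by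
              by_contra hb
              exact hN (hg.1 m (by simpa using hb))⟩
            rw [hQ] at this; simp at this
        refine ⟨hng, ?_⟩
        cases stk with
        | nil => simp
        | cons y stk =>
          obtain ⟨A', B'⟩ := y
          have := ih A' B' stk hr
          intro x hx
          rcases List.mem_cons.1 hx with hx | hx
          · rw [hx]; exact this.1
          · exact this.2 x hx
      · simp at hr
    | P k a b c m =>
      have hs := ax_sound h k a b c
      revert hr hs
      simp only [run]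
      rcases hax : ax k a b c with ⟨ok, P, Q⟩
      simp only
      intro hr hs
      split at hr
      · rename_i hc
        simp only [Bool.and_eq_true, beq_iff] at hc
        obtain ⟨⟨hok, hP⟩, hQ⟩ := hc
        have hsat := hs hok
        have hi := ih _ _ _ hr
        refine ⟨fun hg => hi.1 (hg.addA ?_), hi.2⟩
        rcases hsat with ⟨x, hm, hN⟩ | ⟨x, hm, hN⟩
        · have : (rem P B).testBit x = true := testBit_rem.2 ⟨hm, by
              by_contra hb
              exact hg.2 x (by simpa using hb) hN⟩
          rw [hP, Nat.testBit_two_pow, decide_eq_true_eq] at this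
          rwa [this]
        · have : (rem Q A).testBit x = true := testBit_rem.2 ⟨hm, by
              by_contra hb
              exact hN (hg.1 x (by simpa using hb))⟩
          rw [hQ] at this; simp at this
      · simp at hr
    | Q k a b c m =>
      have hs := ax_sound h k a b c
      revert hr hs
      simp only [run]
      rcases hax : ax k a b c with ⟨ok, P, Q⟩
      simp only
      intro hr hs
      split at hr
      · rename_i hc
        simp only [Bool.and_eq_true, beq_iff] at hc
        obtain ⟨⟨hok, hP⟩, hQ⟩ := hc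
        have hsat := hs hok
        have hi := ih _ _ _ hr
        refine ⟨fun hg => hi.1 (hg.addB ?_), hi.2⟩
        rcases hsat with ⟨x, hm, hN⟩ | ⟨x, hm, hN⟩
        · have : (rem P B).testBit x = true := testBit_rem.2 ⟨hm, by
              by_contra hb
              exact hg.2 x (by simpa using hb) hN⟩
          rw [hP] at this; simp at this
        · have : (rem Q A).testBit x = true := testBit_rem.2 ⟨hm, by
              by_contra hb
              exact hN (hg.1 x (by simpa using hb))⟩
          rw [hQ, Nat.testBit_two_pow, decide_eq_true_eq] at this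
          rwa [this]
      · simp at hr
    | S m =>
      simp only [run] at hr
      have hi := ih _ _ _ hr
      refine ⟨fun hg => ?_, fun x hx => hi.2 x (List.mem_cons_of_mem _ hx)⟩
      by_cases hN : N (fs m)
      · exact hi.1 (hg.addA hN)
      · exact hi.2 (A, B ||| 2 ^ m) List.mem_cons_self (hg.addB hN)
    | Y l sw =>
      simp only [run] at hr
      split at hr
      · simp at hr
      · rename_i p n hpn
        split at hr
        · rename_i hc
          simp only [Bool.and_eq_true, List.all_eq_true] at hc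
          obtain ⟨⟨hsw, hp⟩, hn⟩ := hc
          have hmem : (p, n) ∈ lems := List.mem_of_getElem? hpn
          have hng : ¬ Good N A B := by
            intro hg
            refine sym_sound p n (hl (p, n) hmem) sw N h ?_ ?_ ?_
            · intro x hx
              have := hsw x hx
              simp only [Nat.blt_eq] at this
              exact this
            · intro m hm; exact hg.1 _ (hp m hm)
            · intro m hm; exact hg.2 _ (hn m hm)
          refine ⟨hng, ?_⟩
          cases stk with
          | nil => simp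
          | cons y stk =>
            obtain ⟨A', B'⟩ := y
            have := ih A' B' stk hr
            intro x hx
            rcases List.mem_cons.1 hx with hx | hx
            · rw [hx]; exact this.1
            · exact this.2 x hx
        · simp at hr

/-- bit set of a list -/
def bits (l : List ℕ) : ℕ := l.foldr (fun m acc => 2 ^ m ||| acc) 0

theorem testBit_bits (l : List ℕ) (m : ℕ) : (bits l).testBit m = true ↔ m ∈ l := by
  induction l with
  | nil => simp [bits]
  | cons x l ih =>
    have : bits (x :: l) = 2 ^ x ||| bits l := rfl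
    rw [this, Nat.testBit_or, Bool.or_eq_true, ih, Nat.testBit_two_pow, decide_eq_true_eq,
      List.mem_cons]
    exact or_congr_left eq_comm

theorem lemma_of_run (lems : List (List ℕ × List ℕ))
    (hl : ∀ x ∈ lems, ∀ N, Hyp N → GoodL N x.1 x.2 → False) (is : List I) (p n : List ℕ)
    (hr : run lems is (bits p) (bits n) [] = true) : ∀ N, Hyp N → GoodL N p n → False := by
  intro N h hg
  refine (run_sound lems hl h is _ _ _ hr).1 ⟨fun m hm => hg.1 m ((testBit_bits p m).1 hm),
    fun m hm => hg.2 m ((testBit_bits n m).1 hm)⟩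

end Crest.Agent.R050.CoreM
private theorem rz_d3f46d202f : type_of% @_root_.Crest.Agent.R050.CoreM.app.eq_def := @_root_.Crest.Agent.R050.CoreM.app.eq_def -- L294
private theorem rz_06f0244044 : type_of% @_root_.Crest.Agent.R050.CoreM.app.eq_1 := @_root_.Crest.Agent.R050.CoreM.app.eq_1 -- L294
private theorem rz_f3760841aa : type_of% @_root_.Crest.Agent.R050.CoreM.ax.eq_1 := @_root_.Crest.Agent.R050.CoreM.ax.eq_1 -- L160
private theorem rz_1faa3aefc0 : type_of% @_root_.Crest.Agent.R050.CoreM.run.eq_def := @_root_.Crest.Agent.R050.CoreM.run.eq_def -- L307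
private theorem rz_9a3c521cfc : type_of% @_root_.Crest.Agent.R050.CoreM.run.eq_1 := @_root_.Crest.Agent.R050.CoreM.run.eq_1 -- L307
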