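import Crest.Agent.R050.Defs

/-!
# The Fan identity (mod 2) for the alternating cochain, and the ladder lemma
-/

namespace Crest.Agent.R050

open Finsupp

theorem lneg_lneg (a : Lab) : lneg (lneg a) = a := by
  simp [lneg]

theorem map_lneg_lneg (l : List Lab) : (l.map lneg).map lneg = l := by
  rw [List.map_map]
  have : (lneg ∘ lneg : Lab → Lab) = id := by
    funext a; exact lneg_lneg a
  rw [this, List.map_id]

theorem map_fst_lneg (l : List Lab) : (l.map lneg).map Prod.fst = l.map Prod.fst := by
  rw [List.map_map]; rfl

/-- a permutation invariant cochain has permutation invariant coboundary -/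
theorem ev_bd_perm {α : Type*} {l l' : List α} (h : l.Perm l') :
    ∀ (ψ : List α → ZMod 2) (_ : ∀ l l' : List α, l.Perm l' → ψ l = ψ l'),
      ev ψ (bd (sg l)) = ev ψ (bd (sg l')) := by
  have key : ∀ (ψ : List α → ZMod 2) (a : α) (l : List α),
      ev ψ (bd (sg (a :: l))) = ψ l + ev (fun m => ψ (a :: m)) (bd (sg l)) := by
    intro ψ a l
    rw [bd_cons, map_add, lin_sg]
    congr 1
    have : (ev ψ ∘ₗ cone a : Ch α →ₗ[ZMod 2] ZMod 2) = ev (fun m => ψ (a :: m)) := by
      apply lin_ext
      intro l
      simp
    exact congrArg (fun f => f (bd (sg l))) this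
  induction h with
  | nil => intro ψ _; rfl
  | cons a h ih =>
    intro ψ hψ
    rw [key, key, hψ _ _ h, ih (fun m => ψ (a :: m)) (fun m m' hm => hψ _ _ (hm.cons a))]
  | swap a b l =>
    intro ψ hψ
    rw [key, key, key, key]
    have : (fun m => ψ (b :: a :: m)) = (fun m => ψ (a :: b :: m)) := by
      funext m; exact hψ _ _ (List.Perm.swap a b m)
    rw [this]
    abel
  | trans _ _ ih1 ih2 =>
    intro ψ hψ
    rw [ih1 ψ hψ, ih2 ψ hψ]

theorem ev_bd_cons {α : Type*} (ψ : List α → ZMod 2) (a : α) (l : List α) :
    ev ψ (bd (sg (a :: l))) = ψ l + ev (fun m => ψ (a :: m)) (bd (sg l)) := by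
  rw [bd_cons, map_add, lin_sg]
  congr 1
  have : (ev ψ ∘ₗ cone a : Ch α →ₗ[ZMod 2] ZMod 2) = ev (fun m => ψ (a :: m)) := by
    apply lin_ext
    intro l
    simp
  exact congrArg (fun f => f (bd (sg l))) this

/-- the boundary of `l` is supported on sublists of `l` -/
theorem Sup_bd_sublist {α : Type*} (l : List α) : Sup (fun m => m.Sublist l) (bd (sg l)) := by
  induction l with
  | nil => rw [bd_nil]; exact Sup.zero
  | cons a l ih =>
    rw [bd_cons]
    exact Sup.add (Sup.sg (List.sublist_cons_self a l)) (Sup.cone ih fun m hm => hm.cons_cons a)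

theorem alt_perm (l l' : List Lab) (h : l.Perm l') : alt l = alt l' := by
  unfold alt
  have h1 : (l.map Prod.fst).Nodup ↔ (l'.map Prod.fst).Nodup := (h.map Prod.fst).nodup_iff
  have h2 : (∀ a ∈ l, a.2 = decide ((l.filter (fun b => decide (b.1 < a.1))).length % 2 = 0)) ↔
      (∀ a ∈ l', a.2 = decide ((l'.filter (fun b => decide (b.1 < a.1))).length % 2 = 0)) := by
    constructor
    · intro H a ha
      rw [H a (h.mem_iff.2 ha), (h.filter (fun b => decide (b.1 < a.1))).length_eq]
    · intro H a ha
      rw [H a (h.mem_iff.1 ha), (h.filter (fun b => decide (b.1 < a.1))).length_eq]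
  simp only [h1, h2]

theorem length_filter_map_lneg (l : List Lab) (n : ℕ) :
    ((l.map lneg).filter (fun b => decide (b.1 < n))).length =
      (l.filter (fun b => decide (b.1 < n))).length := by
  rw [List.filter_map, List.length_map]
  rfl

/-- recursion for `alt` at the smallest element -/
theorem alt_cons (a : Lab) (l : List Lab) (h : ∀ b ∈ l, a.1 < b.1) :
    alt (a :: l) = if a.2 = true then alt (l.map lneg) else 0 := by
  have hfa : (a :: l).filter (fun b => decide (b.1 < a.1)) = [] := by
    rw [List.filter_eq_nil_iff]
    intro b hb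
    rcases List.mem_cons.1 hb with rfl | hb
    · simp
    · have := h b hb
      simp only [decide_eq_true_eq]; omega
  have hnd : ((a :: l).map Prod.fst).Nodup ↔ ((l.map lneg).map Prod.fst).Nodup := by
    rw [map_fst_lneg, List.map_cons, List.nodup_cons]
    constructor
    · exact fun H => H.2
    · intro H
      refine ⟨?_, H⟩
      intro hm
      obtain ⟨b, hb, hb'⟩ := List.mem_map.1 hm
      have := h b hb
      omega
  have hcnt : ∀ b ∈ l, ((a :: l).filter (fun c => decide (c.1 < b.1))).length =
      (l.filter (fun c => decide (c.1 < b.1))).length + 1 := by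
    intro b hb
    rw [List.filter_cons_of_pos (by simpa using h b hb), List.length_cons]
  have hs : (∀ b ∈ l, b.2 = decide (((a :: l).filter (fun c => decide (c.1 < b.1))).length % 2 = 0))
      ↔ (∀ b ∈ l.map lneg,
        b.2 = decide (((l.map lneg).filter (fun c => decide (c.1 < b.1))).length % 2 = 0)) := by
    have e : ∀ b : Lab, b ∈ l →
        ((b.2 = decide (((a :: l).filter (fun c => decide (c.1 < b.1))).length % 2 = 0)) ↔
        ((lneg b).2 = decide (((l.map lneg).filter
          (fun c => decide (c.1 < (lneg b).1))).length % 2 = 0))) := by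
      intro b hb
      rw [hcnt b hb, length_filter_map_lneg]
      show (b.2 = decide (((l.filter (fun c => decide (c.1 < b.1))).length + 1) % 2 = 0)) ↔
        ((!b.2) = decide ((l.filter (fun c => decide (c.1 < b.1))).length % 2 = 0))
      generalize (l.filter (fun c => decide (c.1 < b.1))).length = n
      rcases Nat.mod_two_eq_zero_or_one n with hn | hn
      · have h1 : (n + 1) % 2 = 1 := by omega
        rw [h1, hn]
        cases b.2 <;> simp
      · have h1 : (n + 1) % 2 = 0 := by omega
        rw [h1, hn]
        cases b.2 <;> simp
    constructor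
    · intro H b hb
      obtain ⟨c, hc, rfl⟩ := List.mem_map.1 hb
      exact (e c hc).1 (H c hc)
    · intro H b hb
      exact (e b hb).2 (H (lneg b) (List.mem_map_of_mem hb))
  have hall : (∀ b ∈ a :: l,
      b.2 = decide (((a :: l).filter (fun c => decide (c.1 < b.1))).length % 2 = 0)) ↔
      (a.2 = true ∧ ∀ b ∈ l.map lneg,
        b.2 = decide (((l.map lneg).filter (fun c => decide (c.1 < b.1))).length % 2 = 0)) := by
    rw [← hs, List.forall_mem_cons, hfa]
    simp
  unfold alt
  by_cases ha : a.2 = true
  · rw [if_pos ha]
    exact if_congr (by rw [hnd, hall]; simp only [ha, true_and]) rfl rfl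
  · rw [if_neg ha, if_neg]
    rw [hall]
    exact fun H => ha H.2.1

/-- Fan's identity for a list which is strictly increasing in absolute values -/
theorem fan_sorted (l : List Lab) :
    l.Pairwise (fun a b => a.1 < b.1) → ev alt (bd (sg l)) = alt l + alt (l.map lneg) := by
  -- strong induction on the length, as we also use the statement for `l.map lneg`
  induction hn : l.length generalizing l with
  | zero =>
    intro _
    rw [List.length_eq_zero_iff] at hn
    subst hn
    rw [bd_nil, map_zero, List.map_nil, two_self]
  | succ n ih =>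
    intro hl
    cases l with
    | nil => simp at hn
    | cons a l =>
      have hln : l.length = n := by simpa using hn
      rw [List.pairwise_cons] at hl
      obtain ⟨ha, hl⟩ := hl
      have hl' : (l.map lneg).Pairwise (fun a b => a.1 < b.1) := by
        rw [List.pairwise_map]; exact hl
      have ha' : ∀ b ∈ l.map lneg, (lneg a).1 < b.1 := by
        intro b hb
        obtain ⟨c, hc, rfl⟩ := List.mem_map.1 hb
        exact ha c hc
      have IH := ih (l.map lneg) (by rw [List.length_map]; exact hln) hl'
      rw [map_lneg_lneg] at IH
      rw [ev_bd_cons, List.map_cons, alt_cons a l ha, alt_cons (lneg a) (l.map lneg) ha',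
        map_lneg_lneg]
      have h1 : ev (fun m => alt (a :: m)) (bd (sg l)) =
          if a.2 = true then ev alt (bd (sg (l.map lneg))) else 0 := by
        have h2 : ev (fun m => alt (a :: m)) (bd (sg l)) =
            ev (fun m => if a.2 = true then alt (m.map lneg) else 0) (bd (sg l)) := by
          apply ev_congr (Sup_bd_sublist l)
          intro m hm
          exact alt_cons a m fun b hb => ha b (hm.subset hb)
        rw [h2]
        by_cases h3 : a.2 = true
        · simp only [h3, if_true]
          rw [← ev_mp alt lneg, mp_bd, mp_sg]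
        · simp only [h3]
          exact ev_eq_zero (P := fun _ => True) (fun _ _ => trivial) fun _ _ => by simp
      rw [h1, IH]
      show alt l + (if a.2 = true then alt (l.map lneg) + alt l else 0) =
        (if a.2 = true then alt (l.map lneg) else 0) + (if (!a.2) = true then alt l else 0)
      by_cases h3 : a.2 = true
      · simp only [h3, if_true, Bool.not_true, Bool.false_eq_true, if_false, add_zero]
        rw [add_comm (alt (l.map lneg)) (alt l), ← add_assoc, two_self, zero_add]
      · have h4 : a.2 = false := by simpa using h3
        simp [h4]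

/-- Fan's identity: for a list of signed labels without opposite labels, the number (mod 2) of
facets with alternating signs starting with `+` is `alt l + alt (-l)`. -/
theorem fan_all (l : List Lab) (h : ∀ a ∈ l, lneg a ∉ l) :
    ev alt (bd (sg l)) = alt l + alt (l.map lneg) := by
  by_cases hnd : (l.map Prod.fst).Nodup
  · -- sort
    classical
    let r : Lab → Lab → Prop := fun a b => a.1 ≤ b.1
    have : DecidableRel r := fun a b => Nat.decLe a.1 b.1
    have : Std.Total r := ⟨fun a b => Nat.le_total a.1 b.1⟩
    have : IsTrans Lab r := ⟨fun a b c => Nat.le_trans⟩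
    have hp : (l.insertionSort r).Perm l := List.perm_insertionSort r l
    have hs : (l.insertionSort r).Pairwise r := List.pairwise_insertionSort r l
    have hnd' : (l.insertionSort r).Pairwise (fun a b => a.1 ≠ b.1) := by
      have : ((l.insertionSort r).map Prod.fst).Nodup := ((hp.map Prod.fst).nodup_iff).2 hnd
      rw [List.Nodup, List.pairwise_map] at this
      exact this
    have hlt : (l.insertionSort r).Pairwise (fun a b => a.1 < b.1) := by
      refine (hs.and hnd').imp ?_
      intro a b hab
      exact lt_of_le_of_ne hab.1 hab.2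
    have := fan_sorted _ hlt
    rw [ev_bd_perm hp alt alt_perm, alt_perm _ _ hp, alt_perm _ _ (hp.map lneg)] at this
    exact this
  · -- a repeated element
    have h0 : alt l = 0 := by
      unfold alt; rw [if_neg]; exact fun H => hnd H.1
    have h0' : alt (l.map lneg) = 0 := by
      unfold alt; rw [if_neg]; rw [map_fst_lneg]; exact fun H => hnd H.1
    rw [h0, h0', add_zero]
    rw [← List.exists_duplicate_iff_not_nodup] at hnd
    obtain ⟨x, hx⟩ := hnd
    rw [List.duplicate_iff_sublist, List.sublist_map_iff] at hx
    obtain ⟨l0, hl0, hx⟩ := hx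
    have hlen : l0.length = 2 := by
      have := congrArg List.length hx
      simpa using this.symm
    obtain ⟨a, b, rfl⟩ := List.length_eq_two.1 hlen
    · have hab : a.1 = b.1 := by
        simp at hx; omega
      obtain ⟨l', hl'⟩ := hl0.exists_perm_append
      have hba : b = a := by
        have ha : a ∈ l := hl0.subset (by simp)
        have hb : b ∈ l := hl0.subset (by simp)
        by_contra hne
        apply h a ha
        have : lneg a = b := by
          obtain ⟨a1, a2⟩ := a
          obtain ⟨b1, b2⟩ := b
          simp only at hab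
          subst hab
          simp only [lneg, Prod.mk.injEq, true_and]
          simp only [Prod.mk.injEq, true_and] at hne
          revert hne
          cases a2 <;> cases b2 <;> simp
        rw [this]; exact hb
      subst hba
      rw [ev_bd_perm hl' alt alt_perm]
      show ev alt (bd (sg (b :: b :: l'))) = 0
      rw [ev_bd_cons, ev_bd_cons, ← add_assoc, two_self, zero_add]
      refine ev_eq_zero (P := fun _ => True) (fun _ _ => trivial) fun m _ => ?_
      unfold alt
      rw [if_neg]
      intro H
      have := H.1
      simp at this

theorem fan (l : List Lab) (h : ∀ a ∈ l, lneg a ∉ l) (_hl : l.length ≤ 4) :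
    ev alt (bd (sg l)) = alt l + alt (l.map lneg) := fan_all l h

/-- ladder lemma, the labelling only has to be antipodal on the support -/
theorem fan_ladder' {α : Type*} (z : α → α) (lab : α → Lab) (C : ℕ → Ch α) (n : ℕ)
    (h0 : bd (C 0) = sg []) (hb : ∀ k, k < n → bd (C (k + 1)) = C k + mp z (C k))
    (hs : ∀ k, k ≤ n → Sup (fun l => (∀ v ∈ l, ∀ w ∈ l, lab v ≠ lneg (lab w)) ∧
      ∀ v ∈ l, lab (z v) = lneg (lab v)) (C k)) :
    ev alt (mp lab (C n + mp z (C n))) = 1 := by
  -- the basic identity on each level
  have key : ∀ k, k ≤ n → ev alt (mp lab (C k + mp z (C k))) = ev alt (mp lab (bd (C k))) := by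
    intro k hk
    rw [mp_bd, ev_bd, ev_mp, ev_mp, map_add, ev_mp, ← ev_add_left]
    apply ev_congr (hs k hk)
    intro l hl
    have e1 : (l.map z).map lab = (l.map lab).map lneg := by
      rw [List.map_map, List.map_map]
      apply List.map_congr_left
      intro v hv
      exact hl.2 v hv
    rw [e1]
    show _ = ev alt (bd (sg (l.map lab)))
    rw [fan_all]
    intro a ha ha'
    obtain ⟨w, hw, rfl⟩ := List.mem_map.1 ha
    obtain ⟨v, hv, hv'⟩ := List.mem_map.1 ha'
    exact hl.1 v hv w hw hv'
  have main : ∀ k, k ≤ n → ev alt (mp lab (C k + mp z (C k))) = 1 := by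
    intro k
    induction k with
    | zero =>
      intro hk
      rw [key 0 hk, h0, mp_sg, lin_sg]
      simp [alt]
    | succ k ih =>
      intro hk
      rw [key (k + 1) hk, hb k (by omega)]
      exact ih (by omega)
  exact main n le_rfl


end Crest.Agent.R050
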