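import Crest.Agent.R050.Chain

/-!
# Barycentric subdivision of list chains in a real normed space
-/

namespace Crest.Agent.R050

section alg
variable {V W : Type*} [AddCommGroup V] [Module ℝ V] [AddCommGroup W] [Module ℝ W]

/-- barycenter of a list -/
noncomputable def bary (l : List V) : V := (l.length : ℝ)⁻¹ • l.sum

theorem map_bary (f : V →ₗ[ℝ] W) (l : List V) : f (bary l) = bary (l.map f) := by
  simp [bary, map_list_sum]

/-- barycentric subdivision of chains whose simplices have `n` vertices -/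
noncomputable def Sd : ℕ → (Ch V →ₗ[ZMod 2] Ch V)
  | 0 => LinearMap.id
  | n + 1 => lin (fun l => cone (bary l) (Sd n (bd (sg l))))

theorem Sd_zero (c : Ch V) : Sd 0 c = c := rfl

theorem Sd_succ (n : ℕ) (l : List V) : Sd (n + 1) (sg l) = cone (bary l) (Sd n (bd (sg l))) := by
  simp [Sd]

theorem bd_Sd (n : ℕ) (c : Ch V) : bd (Sd (n + 1) c) = Sd n (bd c) := by
  have key : ∀ n : ℕ, (bd ∘ₗ Sd (n + 1) : Ch V →ₗ[ZMod 2] Ch V) = Sd n ∘ₗ bd := by
    intro n
    induction n with
    | zero =>
      apply lin_ext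
      intro l
      simp [Sd_succ, Sd_zero, bd_cone]
    | succ n ih =>
      apply lin_ext
      intro l
      have h := congrArg (fun f => f (bd (sg l))) ih
      simp only [LinearMap.comp_apply, bd_bd, map_zero] at h ⊢
      rw [Sd_succ (n + 1), bd_cone, h]
      simp
  exact congrArg (fun f => f c) (key n)

theorem mp_Sd (n : ℕ) (f : V →ₗ[ℝ] W) (c : Ch V) : mp f (Sd n c) = Sd n (mp f c) := by
  have key : ∀ n : ℕ, (mp f ∘ₗ Sd n : Ch V →ₗ[ZMod 2] Ch W) = Sd n ∘ₗ mp f := by
    intro n
    induction n with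
    | zero => rfl
    | succ n ih =>
      apply lin_ext
      intro l
      have h := congrArg (fun g => g (bd (sg l))) ih
      simp only [LinearMap.comp_apply] at h ⊢
      rw [Sd_succ, mp_cone, map_bary, h, mp_bd, mp_sg, Sd_succ]
  exact congrArg (fun f => f c) (key n)

/-- iterated subdivision: `m` times -/
noncomputable def SdI (n : ℕ) : ℕ → (Ch V →ₗ[ZMod 2] Ch V)
  | 0 => LinearMap.id
  | m + 1 => Sd n ∘ₗ SdI n m

theorem SdI_zero (n : ℕ) (c : Ch V) : SdI n 0 c = c := rfl

theorem SdI_succ (n m : ℕ) (c : Ch V) : SdI n (m + 1) c = Sd n (SdI n m c) := rfl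

theorem bd_SdI (n m : ℕ) (c : Ch V) : bd (SdI (n + 1) m c) = SdI n m (bd c) := by
  induction m with
  | zero => rfl
  | succ m ih => rw [SdI_succ, bd_Sd, ih, SdI_succ]

theorem mp_SdI (n m : ℕ) (f : V →ₗ[ℝ] W) (c : Ch V) : mp f (SdI n m c) = SdI n m (mp f c) := by
  induction m with
  | zero => rfl
  | succ m ih => rw [SdI_succ, mp_Sd, ih, SdI_succ]

theorem SdI_zero_left (m : ℕ) (c : Ch V) : SdI 0 m c = c := by
  induction m with
  | zero => rfl
  | succ m ih => rw [SdI_succ, ih, Sd_zero]



end alg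

section mesh
variable {V : Type*} [NormedAddCommGroup V] [NormedSpace ℝ V]

/-- faces of a list: elements and length -/
theorem Sup_bd (l : List V) (n : ℕ) (hl : l.length = n + 1) :
    Sup (fun l' => l'.length = n ∧ ∀ v ∈ l', v ∈ l) (bd (sg l)) := by
  induction l generalizing n with
  | nil => simp at hl
  | cons a l ih =>
    rw [bd_cons]
    have hl' : l.length = n := by simpa using hl
    refine Sup.add (Sup.sg ⟨hl', fun v hv => List.mem_cons_of_mem _ hv⟩) ?_
    cases n with
    | zero =>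
      have : l = [] := List.length_eq_zero_iff.1 hl'
      subst this
      simp
    | succ n =>
      refine Sup.cone (ih n hl') ?_
      rintro l' ⟨h1, h2⟩
      refine ⟨by simpa using h1, ?_⟩
      intro v hv
      rcases List.mem_cons.1 hv with rfl | hv
      · exact List.mem_cons_self
      · exact List.mem_cons_of_mem _ (h2 v hv)

theorem bary_mem_convexHull (l : List V) (hl : l ≠ []) :
    bary l ∈ convexHull ℝ {w | w ∈ l} := by
  have hpos : (0 : ℝ) < l.length := by
    have := List.length_pos_iff.2 hl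
    exact_mod_cast this
  have h : bary l = ∑ i : Fin l.length, (l.length : ℝ)⁻¹ • l.get i := by
    rw [← Finset.smul_sum]
    unfold bary
    congr 1
    rw [← List.sum_ofFn]
    congr 1
    exact (List.ofFn_get l).symm
  rw [h]
  apply Convex.sum_mem (convex_convexHull ℝ _)
  · intro i _; positivity
  · simp [hpos.ne']
  · intro i _
    exact subset_convexHull ℝ _ (List.get_mem l i)

theorem norm_bary_sub_le (l : List V) (w : V) (hw : w ∈ l) (d : ℝ)
    (hd : ∀ v ∈ l, dist v w ≤ d) (h4 : l.length ≤ 4) : dist (bary l) w ≤ 3 / 4 * d := by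
  have hd0 : 0 ≤ d := le_trans (by simp) (hd w hw)
  have hlpos : 0 < l.length := List.length_pos_of_mem hw
  have hpos : (0 : ℝ) < l.length := by exact_mod_cast hlpos
  obtain ⟨i0, hi0⟩ := List.get_of_mem hw
  have h : bary l - w = (l.length : ℝ)⁻¹ • ∑ i : Fin l.length, (l.get i - w) := by
    rw [Finset.sum_sub_distrib]
    simp only [Finset.sum_const, Finset.card_univ, Fintype.card_fin, smul_sub]
    rw [← Nat.cast_smul_eq_nsmul ℝ, smul_smul, inv_mul_cancel₀ hpos.ne', one_smul]
    unfold bary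
    congr 2
    rw [← List.sum_ofFn]
    congr 1
    exact (List.ofFn_get l).symm
  rw [dist_eq_norm, h, norm_smul, norm_inv, Real.norm_natCast]
  have h2 : ‖∑ i : Fin l.length, (l.get i - w)‖ ≤ (l.length - 1) * d := by
    calc ‖∑ i : Fin l.length, (l.get i - w)‖ ≤ ∑ i : Fin l.length, ‖l.get i - w‖ :=
          norm_sum_le _ _
      _ = ∑ i ∈ Finset.univ.erase i0, ‖l.get i - w‖ := by
          rw [← Finset.add_sum_erase _ _ (Finset.mem_univ i0), hi0]
          simp
      _ ≤ ∑ i ∈ Finset.univ.erase i0, d := by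
          apply Finset.sum_le_sum
          intro i _
          rw [← dist_eq_norm]
          exact hd _ (List.get_mem l i)
      _ = (l.length - 1) * d := by
          rw [Finset.sum_const, Finset.card_erase_of_mem (Finset.mem_univ _)]
          simp only [Finset.card_univ, Fintype.card_fin, nsmul_eq_mul]
          rw [Nat.cast_sub hlpos]
          simp
  have h3 : ((l.length : ℝ) - 1) ≤ 3 / 4 * l.length := by
    have : (l.length : ℝ) ≤ 4 := by exact_mod_cast h4
    linarith
  calc (l.length : ℝ)⁻¹ * ‖∑ i : Fin l.length, (l.get i - w)‖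
      ≤ (l.length : ℝ)⁻¹ * ((3 / 4 * l.length) * d) := by
        apply mul_le_mul_of_nonneg_left _ (by positivity)
        exact le_trans h2 (mul_le_mul_of_nonneg_right h3 hd0)
    _ = 3 / 4 * d := by field_simp

/-- mesh and hull control for one subdivision -/
theorem Sup_Sd (n : ℕ) (hn : n ≤ 4) (l : List V) (hl : l.length = n) (d : ℝ)
    (hd : ∀ v ∈ l, ∀ w ∈ l, dist v w ≤ d) :
    Sup (fun l' => l'.length = n ∧ (∀ v ∈ l', v ∈ convexHull ℝ {w | w ∈ l}) ∧
      ∀ v ∈ l', ∀ w ∈ l', dist v w ≤ 3 / 4 * d) (Sd n (sg l)) := by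
  induction n generalizing l with
  | zero =>
    have : l = [] := List.length_eq_zero_iff.1 hl
    subst this
    exact Sup.sg ⟨rfl, by simp, by simp⟩
  | succ n ih =>
    have hne : l ≠ [] := by intro h; subst h; simp at hl
    have hd0 : 0 ≤ d := by
      obtain ⟨v, hv⟩ := List.exists_mem_of_ne_nil l hne
      exact le_trans (by simp) (hd v hv v hv)
    rw [Sd_succ]
    have h1 : Sup (fun l' => l'.length = n ∧ (∀ v ∈ l', v ∈ convexHull ℝ {w | w ∈ l}) ∧
        ∀ v ∈ l', ∀ w ∈ l', dist v w ≤ 3 / 4 * d) (Sd n (bd (sg l))) := by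
      refine Sup.map (Sup_bd l n hl) ?_
      rintro l' ⟨hlen, hmem⟩
      refine Sup.mono (ih (by omega) l' hlen fun v hv w hw => hd v (hmem v hv) w (hmem w hw)) ?_
      rintro l'' ⟨a, b, c⟩
      exact ⟨a, fun v hv => convexHull_mono (fun w hw => hmem w hw) (b v hv), c⟩
    refine Sup.cone h1 ?_
    rintro l' ⟨hlen, hmem, hdist⟩
    have hball : ∀ v ∈ l', dist (bary l) v ≤ 3 / 4 * d := by
      intro v hv
      have hsub : convexHull ℝ {w | w ∈ l} ⊆ Metric.closedBall (bary l) (3 / 4 * d) := by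
        apply convexHull_min _ (convex_closedBall _ _)
        intro w hw
        rw [Metric.mem_closedBall, dist_comm]
        exact norm_bary_sub_le l w hw d (fun v hv => hd v hv w hw) (by omega)
      have := hsub (hmem v hv)
      rwa [Metric.mem_closedBall, dist_comm] at this
    refine ⟨by simpa using hlen, ?_, ?_⟩
    · intro v hv
      rcases List.mem_cons.1 hv with rfl | hv
      · exact bary_mem_convexHull l hne
      · exact hmem v hv
    · intro v hv w hw
      rcases List.mem_cons.1 hv with rfl | hv <;> rcases List.mem_cons.1 hw with rfl | hw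
      · simpa using by positivity
      · exact hball w hw
      · rw [dist_comm]; exact hball v hv
      · exact hdist v hv w hw

/-- mesh and hull control for iterated subdivision -/
theorem Sup_SdI (n : ℕ) (hn : n ≤ 4) (m : ℕ) (l : List V) (hl : l.length = n) (d : ℝ)
    (hd : ∀ v ∈ l, ∀ w ∈ l, dist v w ≤ d) :
    Sup (fun l' => l'.length = n ∧ (∀ v ∈ l', v ∈ convexHull ℝ {w | w ∈ l}) ∧
      ∀ v ∈ l', ∀ w ∈ l', dist v w ≤ (3 / 4) ^ m * d) (SdI n m (sg l)) := by
  induction m with
  | zero =>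
    rw [SdI_zero]
    exact Sup.sg ⟨hl, fun v hv => subset_convexHull ℝ _ hv, by simpa using hd⟩
  | succ m ih =>
    rw [SdI_succ]
    refine Sup.map ih ?_
    rintro l' ⟨h1, h2, h3⟩
    refine Sup.mono (Sup_Sd n hn l' h1 _ h3) ?_
    rintro l'' ⟨a, b, c⟩
    refine ⟨a, fun v hv => ?_, fun v hv w hw => ?_⟩
    · have : convexHull ℝ {w | w ∈ l'} ⊆ convexHull ℝ {w | w ∈ l} :=
        convexHull_min (fun w hw => h2 w hw) (convex_convexHull ℝ _)
      exact this (b v hv)
    · have := c v hv w hw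
      calc dist v w ≤ 3 / 4 * ((3 / 4) ^ m * d) := this
        _ = (3 / 4) ^ (m + 1) * d := by ring

/-- support of a subdivided chain, starting from a chain all of whose simplices satisfy `P` -/
theorem Sup_SdI_chain (n : ℕ) (hn : n ≤ 4) (m : ℕ) (P : List V → Prop) (c : Ch V) (d : ℝ)
    (hc : Sup P c) (hP : ∀ l, P l → l.length = n ∧ ∀ v ∈ l, ∀ w ∈ l, dist v w ≤ d) :
    Sup (fun l' => l'.length = n ∧ (∃ l, P l ∧ ∀ v ∈ l', v ∈ convexHull ℝ {w | w ∈ l}) ∧
      ∀ v ∈ l', ∀ w ∈ l', dist v w ≤ (3 / 4) ^ m * d) (SdI n m c) := by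
  refine Sup.map hc ?_
  intro l hl
  refine Sup.mono (Sup_SdI n hn m l (hP l hl).1 d (hP l hl).2) ?_
  rintro l' ⟨a, b, c⟩
  exact ⟨a, ⟨l, hl, b⟩, c⟩

/-- support of the prism -/
theorem Sup_pr {α β : Type*} (f g : α → β) (l : List α) (n : ℕ) (hl : l.length = n) :
    Sup (fun l' => l'.length = n + 1 ∧ ∀ y ∈ l', ∃ v ∈ l, y = f v ∨ y = g v)
      (pr f g (sg l)) := by
  induction l generalizing n with
  | nil => simp
  | cons a l ih =>
    rw [pr_cons]
    refine Sup.add (Sup.sg ⟨by simp at hl ⊢; omega, ?_⟩) ?_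
    · intro y hy
      simp only [List.mem_cons, List.mem_map] at hy
      rcases hy with rfl | rfl | ⟨v, hv, rfl⟩
      · exact ⟨a, by simp, Or.inl rfl⟩
      · exact ⟨a, by simp, Or.inr rfl⟩
      · exact ⟨v, by simp [hv], Or.inr rfl⟩
    · cases n with
      | zero => simp at hl
      | succ n =>
        refine Sup.cone (ih n (by simpa using hl)) ?_
        rintro l' ⟨h1, h2⟩
        refine ⟨by simpa using h1, ?_⟩
        intro y hy
        rcases List.mem_cons.1 hy with rfl | hy
        · exact ⟨a, by simp, Or.inl rfl⟩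
        · obtain ⟨v, hv, h⟩ := h2 y hy
          exact ⟨v, List.mem_cons_of_mem _ hv, h⟩

theorem Sup_pr_chain {α β : Type*} (f g : α → β) (P : List α → Prop) (c : Ch α) (n : ℕ)
    (hc : Sup P c) (hP : ∀ l, P l → l.length = n) :
    Sup (fun l' => l'.length = n + 1 ∧ ∃ l, P l ∧ ∀ y ∈ l', ∃ v ∈ l, y = f v ∨ y = g v)
      (pr f g c) := by
  refine Sup.map hc ?_
  intro l hl
  refine Sup.mono (Sup_pr f g l n (hP l hl)) ?_
  rintro l' ⟨a, b⟩
  exact ⟨a, l, hl, b⟩

end mesh

end Crest.Agent.R050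
private theorem rz_4b3bd6916b : type_of% @_root_.Crest.Agent.R050.Sd.eq_def := @_root_.Crest.Agent.R050.Sd.eq_def -- L19
private theorem rz_303c208c9d : type_of% @_root_.Crest.Agent.R050.Sd.eq_1 := @_root_.Crest.Agent.R050.Sd.eq_1 -- L19
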