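import Crest.Agent.R050.Defs
import Crest.Agent.R050.Sd
import Crest.Agent.R050.Chain
import Crest.Agent.R050.Fan
import Crest.Agent.R050.Split

-- ▼ part R050/DRel
section

/-!
# Symmetrisation of frame chains over the cyclic group `A₃`
-/

namespace Crest.Agent.R050

section
variable {C : Type*}


/-- the third transposition -/
def s13 (v : Fr C) : Fr C := (v.2.2, v.2.1, v.1)


/-- symmetrisation over `A₃` -/
noncomputable def A3 (c : Ch (Fr C)) : Ch (Fr C) := c + mp rot c + mp (rot ∘ rot) c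

theorem A3_add (c d : Ch (Fr C)) : A3 (c + d) = A3 c + A3 d := by
  simp only [A3, map_add]; abel

theorem bd_A3 (c : Ch (Fr C)) : bd (A3 c) = A3 (bd c) := by
  simp only [A3, map_add, mp_bd]

theorem A3_s12 (c : Ch (Fr C)) : A3 (mp s12 c) = mp s12 c + mp s23 c + mp s13 c := by
  simp only [A3, mp_mp]; rfl

theorem s12_A3 (c : Ch (Fr C)) : mp s12 (A3 c) = mp s12 c + mp s13 c + mp s23 c := by
  simp only [A3, map_add, mp_mp]; rfl

theorem s23_A3 (c : Ch (Fr C)) : mp s23 (A3 c) = mp s23 c + mp s12 c + mp s13 c := by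
  simp only [A3, map_add, mp_mp]; rfl

theorem A3_s12_eq (c : Ch (Fr C)) : A3 (mp s12 c) = mp s12 (A3 c) := by
  rw [A3_s12, s12_A3]; abel

theorem s23_A3_eq (c : Ch (Fr C)) : mp s23 (A3 c) = mp s12 (A3 c) := by
  rw [s23_A3, s12_A3]; abel

theorem bd_A3_nil (c : Ch (Fr C)) (h : bd c = sg []) : bd (A3 c) = sg [] := by
  rw [bd_A3, h]
  simp only [A3, mp_sg, List.map_nil]
  rw [two_self, zero_add]

theorem bd_A3_of (c d : Ch (Fr C)) (h : bd d = c + mp s12 c) :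
    bd (A3 d) = A3 c + mp s12 (A3 c) := by
  rw [bd_A3, h, A3_add, A3_s12_eq]

theorem bd_A3_of' (c d : Ch (Fr C)) (h : bd d = c + mp s12 c) :
    bd (A3 d) = A3 c + mp s23 (A3 c) := by
  rw [bd_A3_of c d h, s23_A3_eq]

theorem Sup_A3 {P : List (Fr C) → Prop} (hP : ∀ l, P l → P (l.map rot)) {c : Ch (Fr C)}
    (hc : Sup P c) : Sup P (A3 c) := by
  refine Sup.add (Sup.add hc (Sup.mp hc hP)) (Sup.mp hc ?_)
  intro l hl
  have := hP _ (hP _ hl)
  rwa [List.map_map] at this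

end

section
variable {C : Type*} [DecidableEq C]

theorem cs1_rot (l : List (Fr C)) : cs1 (l.map rot) = cs2 l := by
  simp [cs1, cs2, rot, Function.comp_def]

theorem cs2_rot (l : List (Fr C)) : cs2 (l.map rot) = cs3 l := by
  simp [cs2, cs3, rot, Function.comp_def]

theorem cs3_rot (l : List (Fr C)) : cs3 (l.map rot) = cs1 l := by
  simp [cs1, cs3, rot, Function.comp_def]

theorem Dj.rot {l : List (Fr C)} (h : Dj l) : Dj (l.map rot) := by
  constructor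
  · rw [cs1_rot, cs2_rot]; exact h.d23
  · rw [cs1_rot, cs3_rot]; exact h.d12.symm
  · rw [cs2_rot, cs3_rot]; exact h.d13.symm

theorem InN.rot {N : Finset C → Prop} {l : List (Fr C)} (h : InN N l) : InN N (l.map rot) := by
  constructor
  · rw [cs1_rot]; exact h.n2
  · rw [cs2_rot]; exact h.n3
  · rw [cs3_rot]; exact h.n1

theorem Sm.rot {l : List (Fr C)} (h : Sm l) : Sm (l.map rot) := by
  constructor
  · rw [cs1_rot]; exact h.c2
  · rw [cs2_rot]; exact h.c3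
  · rw [cs3_rot]; exact h.c1

end

end Crest.Agent.R050
end

-- ▼ part R050/CRel
section

/-!
# Abstract coarse relations and their consequences for frame chains
-/

namespace Crest.Agent.R050

/-- The relations between the coarse chains. -/
structure CoarseRel {V : Type*} (X Y : V → V) (c0 Ex Ey F1 F2 G : Ch V) : Prop where
  b0 : bd c0 = sg []
  bx : bd Ex = c0 + mp X c0
  by' : bd Ey = c0 + mp Y c0
  bF1 : bd F1 = (Ex + mp X Ex + mp X (mp X Ex) + mp X (mp X (mp X Ex))) + (Ey + mp Y Ey)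
  bF2 : bd F2 = (Ex + mp X (mp Y Ex)) + (Ey + mp X Ey)
  bG : bd G = (F1 + mp X F1) + (F2 + mp X (mp Y F2))

section
variable {V : Type*} [AddCommGroup V] [Module ℝ V]

/-- relations are preserved by subdivision -/
theorem CoarseRel.sub {X Y : V →ₗ[ℝ] V} {c0 Ex Ey F1 F2 G : Ch V}
    (h : CoarseRel X Y c0 Ex Ey F1 F2 G) (m : ℕ) :
    CoarseRel X Y (SdI 1 m c0) (SdI 2 m Ex) (SdI 2 m Ey) (SdI 3 m F1) (SdI 3 m F2)
      (SdI 4 m G) := by
  constructor
  · rw [bd_SdI, SdI_zero_left, h.b0]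
  · rw [bd_SdI, h.bx, map_add, mp_SdI]
  · rw [bd_SdI, h.by', map_add, mp_SdI]
  · rw [bd_SdI, h.bF1]; simp only [map_add, mp_SdI]
  · rw [bd_SdI, h.bF2]; simp only [map_add, mp_SdI]
  · rw [bd_SdI, h.bG]; simp only [map_add, mp_SdI]

end

section
variable {V : Type*} {C : Type*} {X Y : V → V} {c0 Ex Ey F1 F2 G : Ch V}

theorem mp_X_of (f : V → Fr C) (hX : ∀ v, f (X v) = s12 (f v)) (c : Ch V) :
    mp f (mp X c) = mp s12 (mp f c) := by
  rw [mp_mp, mp_mp]; congr 2; funext v; exact hX v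

theorem mp_Y_of (f : V → Fr C) (hY : ∀ v, f (Y v) = f v) (c : Ch V) :
    mp f (mp Y c) = mp f c := by
  rw [mp_mp]; congr 2; funext v; exact hY v

theorem pr_X_of (f g : V → Fr C) (hX : ∀ v, f (X v) = s12 (f v))
    (gX : ∀ v, g (X v) = s12 (g v)) (c : Ch V) :
    pr f g (mp X c) = mp s12 (pr f g c) := by
  rw [pr_mp, mp_pr]
  have e1 : f ∘ X = s12 ∘ f := by funext v; exact hX v
  have e2 : g ∘ X = s12 ∘ g := by funext v; exact gX v
  rw [e1, e2]

theorem pr_Y_of (f g : V → Fr C) (hY : ∀ v, f (Y v) = f v) (gY : ∀ v, g (Y v) = g v)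
    (c : Ch V) : pr f g (mp Y c) = pr f g c := by
  rw [pr_mp]
  have e1 : f ∘ Y = f := by funext v; exact hY v
  have e2 : g ∘ Y = g := by funext v; exact gY v
  rw [e1, e2]

theorem s12_s12 (c : Ch (Fr C)) : mp s12 (mp s12 c) = c := by
  rw [mp_mp]
  exact mp_id c

/-- algebra behind `bd c₂ = (1 + s12) c₁` -/
theorem two_rel (L : Ch V →ₗ[ZMod 2] Ch (Fr C)) (hX : ∀ c, L (mp X c) = mp s12 (L c))
    (hY : ∀ c, L (mp Y c) = L c) (h : CoarseRel X Y c0 Ex Ey F1 F2 G) :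
    L (bd (F1 + F2)) = L (Ex + Ey) + mp s12 (L (Ex + Ey)) := by
  rw [map_add, h.bF1, h.bF2]
  simp only [map_add, hX, hY, s12_s12]
  have e1 := two_self (L Ex)
  have e2 := two_self (mp s12 (L Ex))
  have e3 := two_self (L Ey)
  calc _ = (L Ex + L Ex) + (mp s12 (L Ex) + mp s12 (L Ex)) + (L Ey + L Ey)
        + (L Ex + L Ey + (mp s12 (L Ex) + mp s12 (L Ey))) := by abel
    _ = _ := by rw [e1, e2, e3]; abel

theorem one_rel (L : Ch V →ₗ[ZMod 2] Ch (Fr C)) (hX : ∀ c, L (mp X c) = mp s12 (L c))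
    (hY : ∀ c, L (mp Y c) = L c) (h : CoarseRel X Y c0 Ex Ey F1 F2 G) :
    L (bd (Ex + Ey)) = L c0 + mp s12 (L c0) := by
  rw [map_add, h.bx, h.by']
  simp only [map_add, hX, hY]
  have e1 := two_self (L c0)
  calc _ = (L c0 + L c0) + (L c0 + mp s12 (L c0)) := by abel
    _ = _ := by rw [e1, zero_add]

theorem three_rel (L : Ch V →ₗ[ZMod 2] Ch (Fr C)) (hX : ∀ c, L (mp X c) = mp s12 (L c))
    (hY : ∀ c, L (mp Y c) = L c) (h : CoarseRel X Y c0 Ex Ey F1 F2 G) :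
    L (bd G) = L (F1 + F2) + mp s12 (L (F1 + F2)) := by
  rw [h.bG]
  simp only [map_add, hX, hY]
  abel

variable {f g : V → Fr C}

theorem frame_rel1 (hX : ∀ v, f (X v) = s12 (f v)) (hY : ∀ v, f (Y v) = f v)
    (h : CoarseRel X Y c0 Ex Ey F1 F2 G) :
    bd (mp f (Ex + Ey)) = mp f c0 + mp s12 (mp f c0) := by
  rw [← mp_bd]; exact one_rel (mp f) (mp_X_of f hX) (mp_Y_of f hY) h

theorem frame_rel2 (hX : ∀ v, f (X v) = s12 (f v)) (hY : ∀ v, f (Y v) = f v)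
    (h : CoarseRel X Y c0 Ex Ey F1 F2 G) :
    bd (mp f (F1 + F2)) = mp f (Ex + Ey) + mp s12 (mp f (Ex + Ey)) := by
  rw [← mp_bd]; exact two_rel (mp f) (mp_X_of f hX) (mp_Y_of f hY) h

theorem frame_rel3 (hX : ∀ v, f (X v) = s12 (f v)) (hY : ∀ v, f (Y v) = f v)
    (h : CoarseRel X Y c0 Ex Ey F1 F2 G) :
    bd (mp f G) = mp f (F1 + F2) + mp s12 (mp f (F1 + F2)) := by
  rw [← mp_bd]; exact three_rel (mp f) (mp_X_of f hX) (mp_Y_of f hY) h

/-- homotopy between the 2-chains of two frame maps -/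
theorem frame_hom (hX : ∀ v, f (X v) = s12 (f v)) (hY : ∀ v, f (Y v) = f v)
    (gX : ∀ v, g (X v) = s12 (g v)) (gY : ∀ v, g (Y v) = g v)
    (h : CoarseRel X Y c0 Ex Ey F1 F2 G) :
    mp f (F1 + F2) + mp g (F1 + F2) = bd (pr f g (F1 + F2)) +
      (pr f g (Ex + Ey) + mp s12 (pr f g (Ex + Ey))) := by
  rw [← bd_pr, two_rel (pr f g) (pr_X_of f g hX gX) (pr_Y_of f g hY gY) h]

/-- symmetrised homotopy -/
theorem frame_hom_A3 (hX : ∀ v, f (X v) = s12 (f v)) (hY : ∀ v, f (Y v) = f v)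
    (gX : ∀ v, g (X v) = s12 (g v)) (gY : ∀ v, g (Y v) = g v)
    (h : CoarseRel X Y c0 Ex Ey F1 F2 G) :
    A3 (mp f (F1 + F2)) + A3 (mp g (F1 + F2)) = bd (A3 (pr f g (F1 + F2))) +
      (A3 (pr f g (Ex + Ey)) + mp s23 (A3 (pr f g (Ex + Ey)))) := by
  rw [← A3_add, frame_hom hX hY gX gY h, A3_add, A3_add, A3_s12_eq, s23_A3_eq, bd_A3]

end

end Crest.Agent.R050
end

-- ▼ part R050/QuatFrame
section

/-!
# Quaternion frames (task 569, rid 50)
-/

namespace Crest.Agent.R050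

open scoped Quaternion

/-- the quaternion `i` -/
def qi : ℍ[ℝ] := ⟨0, 1, 0, 0⟩
/-- the quaternion `j` -/
def qj : ℍ[ℝ] := ⟨0, 0, 1, 0⟩
/-- the quaternion `k` -/
def qk : ℍ[ℝ] := ⟨0, 0, 0, 1⟩

/-- colours of the frame of `x` given by the quaternion `v` -/
noncomputable def fr (κ : ℍ[ℝ] → Fin 10) (x v : ℍ[ℝ]) : Fr (Fin 10) :=
  (κ (x * (v * qi * v⁻¹)), κ (x * (v * qj * v⁻¹)), κ (x * (v * qk * v⁻¹)))

/-- `(1-k)/√2` -/
noncomputable def qX : ℍ[ℝ] := ⟨Real.sqrt 2 / 2, 0, 0, -(Real.sqrt 2 / 2)⟩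
/-- `-i` -/
def qY : ℍ[ℝ] := ⟨0, -1, 0, 0⟩


section components
@[simp] theorem qi_re : qi.re = 0 := rfl
@[simp] theorem qi_imI : qi.imI = 1 := rfl
@[simp] theorem qi_imJ : qi.imJ = 0 := rfl
@[simp] theorem qi_imK : qi.imK = 0 := rfl
@[simp] theorem qj_re : qj.re = 0 := rfl
@[simp] theorem qj_imI : qj.imI = 0 := rfl
@[simp] theorem qj_imJ : qj.imJ = 1 := rfl
@[simp] theorem qj_imK : qj.imK = 0 := rfl
@[simp] theorem qk_re : qk.re = 0 := rfl
@[simp] theorem qk_imI : qk.imI = 0 := rfl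
@[simp] theorem qk_imJ : qk.imJ = 0 := rfl
@[simp] theorem qk_imK : qk.imK = 1 := rfl
@[simp] theorem qX_re : qX.re = Real.sqrt 2 / 2 := rfl
@[simp] theorem qX_imI : qX.imI = 0 := rfl
@[simp] theorem qX_imJ : qX.imJ = 0 := rfl
@[simp] theorem qX_imK : qX.imK = -(Real.sqrt 2 / 2) := rfl
@[simp] theorem qY_re : qY.re = 0 := rfl
@[simp] theorem qY_imI : qY.imI = -1 := rfl
@[simp] theorem qY_imJ : qY.imJ = 0 := rfl
@[simp] theorem qY_imK : qY.imK = 0 := rfl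
end components

/-- right multiplication by `(1-k)/√2` -/
noncomputable def Xm : ℍ[ℝ] →ₗ[ℝ] ℍ[ℝ] := LinearMap.mulRight ℝ qX
/-- right multiplication by `-i` -/
noncomputable def Ym : ℍ[ℝ] →ₗ[ℝ] ℍ[ℝ] := LinearMap.mulRight ℝ qY

theorem Xm_apply (v : ℍ[ℝ]) : Xm v = v * qX := rfl
theorem Ym_apply (v : ℍ[ℝ]) : Ym v = v * qY := rfl



theorem sqrt_two_half_sq : (Real.sqrt 2 / 2) * (Real.sqrt 2 / 2) = 1 / 2 := by
  have := Real.mul_self_sqrt (show (0 : ℝ) ≤ 2 by norm_num)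
  nlinarith

theorem qX_sq : qX * qX = -qk := by
  have h := sqrt_two_half_sq
  ext <;> simp
  all_goals linarith

theorem qk_sq : qk * qk = -1 := by
  ext <;> simp

theorem qX_pow4 : qX * qX * qX * qX = -1 := by
  rw [mul_assoc (qX * qX), qX_sq, neg_mul_neg, qk_sq]

theorem qY_sq : qY * qY = -1 := by
  ext <;> simp

theorem qXYX : qX * qY * qX = qY := by
  have h := sqrt_two_half_sq
  ext <;> simp
  all_goals linarith

/-- `X⁴ = -1` -/
theorem Xm_pow4 (v : ℍ[ℝ]) : Xm (Xm (Xm (Xm v))) = -v := by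
  simp only [Xm_apply]
  calc v * qX * qX * qX * qX = v * (qX * qX * qX * qX) := by simp only [mul_assoc]
    _ = -v := by rw [qX_pow4, mul_neg, mul_one]

/-- `Y² = -1` -/
theorem Ym_sq (v : ℍ[ℝ]) : Ym (Ym v) = -v := by
  simp only [Ym_apply]
  rw [mul_assoc, qY_sq, mul_neg, mul_one]

/-- `X Y X = Y` -/
theorem Xm_Ym_Xm (v : ℍ[ℝ]) : Xm (Ym (Xm v)) = Ym v := by
  simp only [Xm_apply, Ym_apply]
  calc v * qX * qY * qX = v * (qX * qY * qX) := by simp only [mul_assoc]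
    _ = v * qY := by rw [qXYX]

theorem norm_eq_one_of_normSq {q : ℍ[ℝ]} (h : Quaternion.normSq q = 1) : ‖q‖ = 1 := by
  have h1 : ‖q‖ * ‖q‖ = 1 := by rw [← Quaternion.normSq_eq_norm_mul_self, h]
  have h2 : 0 ≤ ‖q‖ := norm_nonneg q
  nlinarith

theorem norm_qX : ‖qX‖ = 1 := by
  apply norm_eq_one_of_normSq
  have h := sqrt_two_half_sq
  simp only [Quaternion.normSq_def', qX_re, qX_imI, qX_imJ, qX_imK]
  nlinarith

theorem norm_qY : ‖qY‖ = 1 := by
  apply norm_eq_one_of_normSq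
  simp [Quaternion.normSq_def']

theorem norm_qi : ‖qi‖ = 1 := by
  apply norm_eq_one_of_normSq
  simp [Quaternion.normSq_def']

theorem norm_qj : ‖qj‖ = 1 := by
  apply norm_eq_one_of_normSq
  simp [Quaternion.normSq_def']

theorem norm_qk : ‖qk‖ = 1 := by
  apply norm_eq_one_of_normSq
  simp [Quaternion.normSq_def']

theorem norm_Xm (v : ℍ[ℝ]) : ‖Xm v‖ = ‖v‖ := by
  rw [Xm_apply, norm_mul, norm_qX, mul_one]

theorem norm_Ym (v : ℍ[ℝ]) : ‖Ym v‖ = ‖v‖ := by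
  rw [Ym_apply, norm_mul, norm_qY, mul_one]

/-- left multiplication scales inner products -/
theorem inner_mul_left' (x a b : ℍ[ℝ]) :
    inner ℝ (x * a) (x * b) = ‖x‖ ^ 2 * inner ℝ a b := by
  rw [real_inner_eq_norm_mul_self_add_norm_mul_self_sub_norm_sub_mul_self_div_two,
    real_inner_eq_norm_mul_self_add_norm_mul_self_sub_norm_sub_mul_self_div_two a b,
    ← mul_sub, norm_mul, norm_mul, norm_mul]
  ring

/-- right multiplication scales inner products -/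
theorem inner_mul_right' (x a b : ℍ[ℝ]) :
    inner ℝ (a * x) (b * x) = ‖x‖ ^ 2 * inner ℝ a b := by
  rw [real_inner_eq_norm_mul_self_add_norm_mul_self_sub_norm_sub_mul_self_div_two,
    real_inner_eq_norm_mul_self_add_norm_mul_self_sub_norm_sub_mul_self_div_two a b,
    ← sub_mul, norm_mul, norm_mul, norm_mul]
  ring

theorem inner_Xm (v w : ℍ[ℝ]) : inner ℝ (Xm v) (Xm w) = inner ℝ v w := by
  rw [Xm_apply, Xm_apply, inner_mul_right', norm_qX, one_pow, one_mul]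


/-! ### frames -/

/-- conjugation of `q` by `v`, moved to the orthogonal complement of `x` -/
noncomputable def fv (x v q : ℍ[ℝ]) : ℍ[ℝ] := x * (v * q * v⁻¹)

theorem fr_eq (κ : ℍ[ℝ] → Fin 10) (x v : ℍ[ℝ]) :
    fr κ x v = (κ (fv x v qi), κ (fv x v qj), κ (fv x v qk)) := rfl

theorem fv_mul (x v p q : ℍ[ℝ]) : fv x (v * p) q = x * (v * (p * q * p⁻¹) * v⁻¹) := by
  simp only [fv, mul_inv_rev, mul_assoc]

theorem qX_ne : qX ≠ 0 := by
  intro h; have := norm_qX; rw [h, norm_zero] at this; exact zero_ne_one this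

theorem qY_ne : qY ≠ 0 := by
  intro h; have := norm_qY; rw [h, norm_zero] at this; exact zero_ne_one this

theorem conj_X_i : qX * qi * qX⁻¹ = -qj := by
  rw [mul_inv_eq_iff_eq_mul₀ qX_ne]
  ext <;> simp

theorem conj_X_j : qX * qj * qX⁻¹ = qi := by
  rw [mul_inv_eq_iff_eq_mul₀ qX_ne]
  ext <;> simp

theorem conj_X_k : qX * qk * qX⁻¹ = qk := by
  rw [mul_inv_eq_iff_eq_mul₀ qX_ne]
  ext <;> simp

theorem conj_Y_i : qY * qi * qY⁻¹ = qi := by
  rw [mul_inv_eq_iff_eq_mul₀ qY_ne]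
  ext <;> simp

theorem conj_Y_j : qY * qj * qY⁻¹ = -qj := by
  rw [mul_inv_eq_iff_eq_mul₀ qY_ne]
  ext <;> simp

theorem conj_Y_k : qY * qk * qY⁻¹ = -qk := by
  rw [mul_inv_eq_iff_eq_mul₀ qY_ne]
  ext <;> simp

theorem kappa_neg {κ : ℍ[ℝ] → Fin 10} (hκ : ∀ (t : ℝ) (v : ℍ[ℝ]), t ≠ 0 → κ (t • v) = κ v)
    (v : ℍ[ℝ]) : κ (-v) = κ v := by
  have := hκ (-1) v (by norm_num)
  rwa [neg_one_smul] at this

theorem fr_Xm {κ : ℍ[ℝ] → Fin 10} (hκ : ∀ (t : ℝ) (v : ℍ[ℝ]), t ≠ 0 → κ (t • v) = κ v)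
    (x v : ℍ[ℝ]) : fr κ x (Xm v) = s12 (fr κ x v) := by
  rw [fr_eq, Xm_apply, fv_mul, fv_mul, fv_mul, conj_X_i, conj_X_j, conj_X_k, fr_eq, s12]
  simp only [fv]
  rw [mul_neg, neg_mul, mul_neg, kappa_neg hκ]

theorem fr_Ym {κ : ℍ[ℝ] → Fin 10} (hκ : ∀ (t : ℝ) (v : ℍ[ℝ]), t ≠ 0 → κ (t • v) = κ v)
    (x v : ℍ[ℝ]) : fr κ x (Ym v) = fr κ x v := by
  rw [fr_eq, Ym_apply, fv_mul, fv_mul, fv_mul, conj_Y_i, conj_Y_j, conj_Y_k, fr_eq]
  simp only [fv]
  rw [mul_neg, neg_mul, mul_neg, kappa_neg hκ, mul_neg, neg_mul, mul_neg, kappa_neg hκ]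



theorem norm_fv {x v q : ℍ[ℝ]} (hx : ‖x‖ = 1) (hv : v ≠ 0) (hq : ‖q‖ = 1) :
    ‖fv x v q‖ = 1 := by
  have : ‖v‖ ≠ 0 := norm_ne_zero_iff.mpr hv
  rw [fv, norm_mul, norm_mul, norm_mul, norm_inv, hx, hq]
  field_simp

theorem inner_fv {x v q q' : ℍ[ℝ]} (hx : ‖x‖ = 1) (hv : v ≠ 0) :
    inner ℝ (fv x v q) (fv x v q') = inner ℝ q q' := by
  have : ‖v‖ ≠ 0 := norm_ne_zero_iff.mpr hv
  rw [fv, fv, inner_mul_left', inner_mul_right', inner_mul_left', hx, norm_inv]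
  field_simp

theorem fv_one {x v : ℍ[ℝ]} (hv : v ≠ 0) : fv x v 1 = x := by
  rw [fv, mul_one, mul_inv_cancel₀ hv, mul_one]

theorem inner_x_fv {x v q : ℍ[ℝ]} (hx : ‖x‖ = 1) (hv : v ≠ 0) :
    inner ℝ x (fv x v q) = inner ℝ 1 q := by
  have h := inner_fv (q := 1) (q' := q) hx hv
  rwa [fv_one hv] at h

theorem inner_qi_qj : inner ℝ qi qj = 0 := by simp [Quaternion.inner_def]
theorem inner_qi_qk : inner ℝ qi qk = 0 := by simp [Quaternion.inner_def]
theorem inner_qj_qk : inner ℝ qj qk = 0 := by simp [Quaternion.inner_def]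
theorem inner_one_qi : inner ℝ 1 qi = 0 := by simp [Quaternion.inner_def]
theorem inner_one_qj : inner ℝ 1 qj = 0 := by simp [Quaternion.inner_def]
theorem inner_one_qk : inner ℝ 1 qk = 0 := by simp [Quaternion.inner_def]

/-- the Lipschitz estimate -/
theorem fv_lip {x x' v v' q : ℍ[ℝ]} (hx' : ‖x'‖ = 1) (hv : 1 / 2 ≤ ‖v‖)
    (hv' : 1 / 2 ≤ ‖v'‖) (hq : ‖q‖ = 1) :
    ‖fv x v q - fv x' v' q‖ ≤ ‖x - x'‖ + 4 * ‖v - v'‖ := by
  have hv0 : v ≠ 0 := by rintro rfl; rw [norm_zero] at hv; norm_num at hv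
  have hv0' : v' ≠ 0 := by rintro rfl; rw [norm_zero] at hv'; norm_num at hv'
  have hn : ‖v‖ ≠ 0 := norm_ne_zero_iff.mpr hv0
  have hn' : ‖v'‖ ≠ 0 := norm_ne_zero_iff.mpr hv0'
  set A := v * q * v⁻¹ with hA
  set A' := v' * q * v'⁻¹ with hA'
  have nA : ‖A‖ = 1 := by
    rw [hA, norm_mul, norm_mul, norm_inv, hq]; field_simp
  have nA' : ‖A'‖ = 1 := by
    rw [hA', norm_mul, norm_mul, norm_inv, hq]; field_simp
  have eA : A * v = v * q := by rw [hA, mul_assoc, inv_mul_cancel₀ hv0, mul_one]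
  have eA' : A' * v' = v' * q := by rw [hA', mul_assoc, inv_mul_cancel₀ hv0', mul_one]
  have e : (A - A') * v = (v - v') * q - A' * (v - v') := by
    rw [sub_mul, sub_mul, mul_sub, eA, eA']; abel
  have h1 : ‖A - A'‖ * ‖v‖ ≤ 2 * ‖v - v'‖ := by
    calc ‖A - A'‖ * ‖v‖ = ‖(A - A') * v‖ := (norm_mul _ _).symm
      _ = ‖(v - v') * q - A' * (v - v')‖ := by rw [e]
      _ ≤ ‖(v - v') * q‖ + ‖A' * (v - v')‖ := norm_sub_le _ _
      _ = 2 * ‖v - v'‖ := by rw [norm_mul, norm_mul, hq, nA']; ring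
  have h2 : ‖A - A'‖ ≤ 4 * ‖v - v'‖ := by
    have := norm_nonneg (A - A')
    nlinarith
  calc ‖fv x v q - fv x' v' q‖ = ‖(x - x') * A + x' * (A - A')‖ := by
        congr 1
        simp only [fv, ← hA, ← hA']
        rw [sub_mul, mul_sub]; abel
    _ ≤ ‖(x - x') * A‖ + ‖x' * (A - A')‖ := norm_add_le _ _
    _ = ‖x - x'‖ + ‖A - A'‖ := by rw [norm_mul (x - x') A, norm_mul x' (A - A'), nA, hx']; ring
    _ ≤ ‖x - x'‖ + 4 * ‖v - v'‖ := by linarith


/-! ### admissibility -/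

theorem mem_cs1 {C : Type*} [DecidableEq C] {l : List (Fr C)} {c : C} :
    c ∈ cs1 l ↔ ∃ v ∈ l, v.1 = c := by
  simp [cs1]

theorem mem_cs2 {C : Type*} [DecidableEq C] {l : List (Fr C)} {c : C} :
    c ∈ cs2 l ↔ ∃ v ∈ l, v.2.1 = c := by
  simp [cs2]

theorem mem_cs3 {C : Type*} [DecidableEq C] {l : List (Fr C)} {c : C} :
    c ∈ cs3 l ↔ ∃ v ∈ l, v.2.2 = c := by
  simp [cs3]

theorem ne_zero_of_half_le {v : ℍ[ℝ]} (hv : 1 / 2 ≤ ‖v‖) : v ≠ 0 := by
  rintro rfl; rw [norm_zero] at hv; norm_num at hv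

/-- colours of different axes of nearby frames are different -/
theorem col_ne {κ : ℍ[ℝ] → Fin 10} {δ : ℝ} (h : GoodCol κ δ) {x v v' q q' : ℍ[ℝ]}
    (hx : ‖x‖ = 1) (hv : 1 / 2 ≤ ‖v‖) (hv' : 1 / 2 ≤ ‖v'‖) (hq : ‖q‖ = 1) (hq' : ‖q'‖ = 1)
    (hqq : inner ℝ q q' = 0) (hd : 4 * ‖v - v'‖ < δ) : κ (fv x v q) ≠ κ (fv x v' q') := by
  intro heq
  have hv0 := ne_zero_of_half_le hv
  have hv0' := ne_zero_of_half_le hv'
  have h1 := h.sep _ _ (norm_fv hx hv0 hq) (norm_fv hx hv0' hq') heq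
  have h2 : inner ℝ (fv x v q) (fv x v' q') =
      inner ℝ (fv x v q) (fv x v' q' - fv x v q') := by
    rw [inner_sub_right, inner_fv hx hv0, hqq, sub_zero]
  have h3 : |inner ℝ (fv x v q) (fv x v' q' - fv x v q')| ≤
      ‖fv x v q‖ * ‖fv x v' q' - fv x v q'‖ := abs_real_inner_le_norm _ _
  have h4 : ‖fv x v' q' - fv x v q'‖ ≤ ‖x - x‖ + 4 * ‖v' - v‖ := fv_lip hx hv' hv hq'
  rw [norm_fv hx hv0 hq, one_mul] at h3
  rw [sub_self, norm_zero, zero_add, norm_sub_rev v' v] at h4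
  rw [h2] at h1
  linarith

theorem Dj_frames {κ : ℍ[ℝ] → Fin 10} {δ : ℝ} (h : GoodCol κ δ) {ε : ℝ} (hε : 4 * ε < δ)
    {x : ℍ[ℝ]} (hx : ‖x‖ = 1) {l : List ℍ[ℝ]} (hl : ∀ v ∈ l, 1 / 2 ≤ ‖v‖)
    (hd : ∀ v ∈ l, ∀ w ∈ l, ‖v - w‖ ≤ ε) : Dj (l.map (fr κ x)) := by
  have key : ∀ q q' : ℍ[ℝ], ‖q‖ = 1 → ‖q'‖ = 1 → inner ℝ q q' = 0 →
      ∀ v ∈ l, ∀ w ∈ l, κ (fv x v q) ≠ κ (fv x w q') := by
    intro q q' hq hq' hqq v hv w hw
    exact col_ne h hx (hl v hv) (hl w hw) hq hq' hqq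
      (lt_of_le_of_lt (mul_le_mul_of_nonneg_left (hd v hv w hw) (by norm_num)) hε)
  constructor
  · rw [Finset.disjoint_left]
    intro c h1 h2
    rw [mem_cs1] at h1
    rw [mem_cs2] at h2
    obtain ⟨_, hv1, rfl⟩ := h1
    obtain ⟨_, hw1, h3⟩ := h2
    obtain ⟨v, hv, rfl⟩ := List.mem_map.mp hv1
    obtain ⟨w, hw, rfl⟩ := List.mem_map.mp hw1
    exact key qi qj norm_qi norm_qj inner_qi_qj v hv w hw h3.symm
  · rw [Finset.disjoint_left]
    intro c h1 h2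
    rw [mem_cs1] at h1
    rw [mem_cs3] at h2
    obtain ⟨_, hv1, rfl⟩ := h1
    obtain ⟨_, hw1, h3⟩ := h2
    obtain ⟨v, hv, rfl⟩ := List.mem_map.mp hv1
    obtain ⟨w, hw, rfl⟩ := List.mem_map.mp hw1
    exact key qi qk norm_qi norm_qk inner_qi_qk v hv w hw h3.symm
  · rw [Finset.disjoint_left]
    intro c h1 h2
    rw [mem_cs2] at h1
    rw [mem_cs3] at h2
    obtain ⟨_, hv1, rfl⟩ := h1
    obtain ⟨_, hw1, h3⟩ := h2
    obtain ⟨v, hv, rfl⟩ := List.mem_map.mp hv1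
    obtain ⟨w, hw, rfl⟩ := List.mem_map.mp hw1
    exact key qj qk norm_qj norm_qk inner_qj_qk v hv w hw h3.symm

/-- a set of colours all realised in a set of small diameter is in the nerve -/
theorem Nv_of_forall {κ : ℍ[ℝ] → Fin 10} {η : ℝ} {s : Finset (Fin 10)} (P : ℍ[ℝ] → Prop)
    (h1 : ∀ i ∈ s, ∃ w, P w ∧ ‖w‖ = 1 ∧ κ w = i)
    (h2 : ∀ v w, P v → P w → ‖v - w‖ ≤ η) : Nv κ η s := by
  classical
  choose! w hw using h1
  refine ⟨w, fun i hi => ⟨(hw i hi).2.1, (hw i hi).2.2⟩, fun i hi j hj => ?_⟩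
  exact h2 _ _ (hw i hi).1 (hw j hj).1

/-- two-point version, for a general axis -/
theorem Nv_two_aux {κ : ℍ[ℝ] → Fin 10} {η ε : ℝ} {x x' : ℍ[ℝ]} (hx : ‖x‖ = 1) (hx' : ‖x'‖ = 1)
    (hη : ‖x - x'‖ + 4 * ε ≤ η) {l : List ℍ[ℝ]} (hl : ∀ v ∈ l, 1 / 2 ≤ ‖v‖)
    (hd : ∀ v ∈ l, ∀ w ∈ l, ‖v - w‖ ≤ ε) {q : ℍ[ℝ]} (hq : ‖q‖ = 1) {s : Finset (Fin 10)}
    (hs : ∀ c ∈ s, ∃ v ∈ l, κ (fv x v q) = c ∨ κ (fv x' v q) = c) : Nv κ η s := by
  apply Nv_of_forall (fun w => ∃ v ∈ l, w = fv x v q ∨ w = fv x' v q)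
  · intro i hi
    obtain ⟨v, hv, h⟩ := hs i hi
    rcases h with h | h
    · exact ⟨fv x v q, ⟨v, hv, Or.inl rfl⟩, norm_fv hx (ne_zero_of_half_le (hl v hv)) hq, h⟩
    · exact ⟨fv x' v q, ⟨v, hv, Or.inr rfl⟩, norm_fv hx' (ne_zero_of_half_le (hl v hv)) hq, h⟩
  · rintro a b ⟨v, hv, hav⟩ ⟨w, hw, hbw⟩
    have hvw := hd v hv w hw
    have h0 : 0 ≤ ‖x - x'‖ := norm_nonneg _
    rcases hav with rfl | rfl <;> rcases hbw with rfl | rfl
    · have := fv_lip (x := x) (x' := x) hx (hl v hv) (hl w hw) hq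
      rw [sub_self, norm_zero] at this
      linarith
    · have := fv_lip (x := x) (x' := x') hx' (hl v hv) (hl w hw) hq
      linarith
    · have := fv_lip (x := x') (x' := x) hx (hl v hv) (hl w hw) hq
      rw [norm_sub_rev x' x] at this
      linarith
    · have := fv_lip (x := x') (x' := x') hx' (hl v hv) (hl w hw) hq
      rw [sub_self, norm_zero] at this
      linarith

theorem Nv_two_cs1 {κ : ℍ[ℝ] → Fin 10} {η ε : ℝ} {x x' : ℍ[ℝ]} (hx : ‖x‖ = 1) (hx' : ‖x'‖ = 1)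
    (hη : ‖x - x'‖ + 4 * ε ≤ η) {l : List ℍ[ℝ]} (hl : ∀ v ∈ l, 1 / 2 ≤ ‖v‖)
    (hd : ∀ v ∈ l, ∀ w ∈ l, ‖v - w‖ ≤ ε) {l' : List (Fr (Fin 10))}
    (hl' : ∀ f ∈ l', ∃ v ∈ l, f = fr κ x v ∨ f = fr κ x' v) : Nv κ η (cs1 l') := by
  apply Nv_two_aux hx hx' hη hl hd norm_qi
  intro c hc
  obtain ⟨f, hf, rfl⟩ := mem_cs1.mp hc
  obtain ⟨v, hv, rfl | rfl⟩ := hl' f hf
  · exact ⟨v, hv, Or.inl rfl⟩
  · exact ⟨v, hv, Or.inr rfl⟩

theorem Nv_two_cs2 {κ : ℍ[ℝ] → Fin 10} {η ε : ℝ} {x x' : ℍ[ℝ]} (hx : ‖x‖ = 1) (hx' : ‖x'‖ = 1)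
    (hη : ‖x - x'‖ + 4 * ε ≤ η) {l : List ℍ[ℝ]} (hl : ∀ v ∈ l, 1 / 2 ≤ ‖v‖)
    (hd : ∀ v ∈ l, ∀ w ∈ l, ‖v - w‖ ≤ ε) {l' : List (Fr (Fin 10))}
    (hl' : ∀ f ∈ l', ∃ v ∈ l, f = fr κ x v ∨ f = fr κ x' v) : Nv κ η (cs2 l') := by
  apply Nv_two_aux hx hx' hη hl hd norm_qj
  intro c hc
  obtain ⟨f, hf, rfl⟩ := mem_cs2.mp hc
  obtain ⟨v, hv, rfl | rfl⟩ := hl' f hf
  · exact ⟨v, hv, Or.inl rfl⟩
  · exact ⟨v, hv, Or.inr rfl⟩

theorem Nv_two_cs3 {κ : ℍ[ℝ] → Fin 10} {η ε : ℝ} {x x' : ℍ[ℝ]} (hx : ‖x‖ = 1) (hx' : ‖x'‖ = 1)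
    (hη : ‖x - x'‖ + 4 * ε ≤ η) {l : List ℍ[ℝ]} (hl : ∀ v ∈ l, 1 / 2 ≤ ‖v‖)
    (hd : ∀ v ∈ l, ∀ w ∈ l, ‖v - w‖ ≤ ε) {l' : List (Fr (Fin 10))}
    (hl' : ∀ f ∈ l', ∃ v ∈ l, f = fr κ x v ∨ f = fr κ x' v) : Nv κ η (cs3 l') := by
  apply Nv_two_aux hx hx' hη hl hd norm_qk
  intro c hc
  obtain ⟨f, hf, rfl⟩ := mem_cs3.mp hc
  obtain ⟨v, hv, rfl | rfl⟩ := hl' f hf
  · exact ⟨v, hv, Or.inl rfl⟩
  · exact ⟨v, hv, Or.inr rfl⟩

theorem InN_frames {κ : ℍ[ℝ] → Fin 10} {η ε : ℝ} (hε : 4 * ε ≤ η)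
    {x : ℍ[ℝ]} (hx : ‖x‖ = 1) {l : List ℍ[ℝ]} (hl : ∀ v ∈ l, 1 / 2 ≤ ‖v‖)
    (hd : ∀ v ∈ l, ∀ w ∈ l, ‖v - w‖ ≤ ε) : InN (Nv κ η) (l.map (fr κ x)) := by
  have hη : ‖x - x‖ + 4 * ε ≤ η := by rw [sub_self, norm_zero]; linarith
  have hm : ∀ f ∈ l.map (fr κ x), ∃ v ∈ l, f = fr κ x v ∨ f = fr κ x v := by
    intro f hf
    obtain ⟨v, hv, rfl⟩ := List.mem_map.mp hf
    exact ⟨v, hv, Or.inl rfl⟩
  exact ⟨Nv_two_cs1 hx hx hη hl hd hm, Nv_two_cs2 hx hx hη hl hd hm,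
    Nv_two_cs3 hx hx hη hl hd hm⟩

theorem col_notMem {κ : ℍ[ℝ] → Fin 10} {δ η : ℝ} (h : GoodCol κ δ) (hη : η < δ)
    {T : Finset (Fin 10)} {w : Fin 10 → ℍ[ℝ]}
    (hw : (∀ i ∈ T, ‖w i‖ = 1 ∧ κ (w i) = i) ∧ ∀ i ∈ T, ∀ j ∈ T, ‖w i - w j‖ ≤ η)
    {t0 : Fin 10} (ht0 : t0 ∈ T) {v q : ℍ[ℝ]} (hv : v ≠ 0) (hq : ‖q‖ = 1)
    (hq1 : inner ℝ 1 q = 0) : κ (fv (w t0) v q) ∉ T := by
  intro hc
  set c := κ (fv (w t0) v q) with hcdef
  have hx := (hw.1 t0 ht0).1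
  have h1 := h.sep _ _ (norm_fv hx hv hq) (hw.1 c hc).1 (by rw [(hw.1 c hc).2])
  have h2 : inner ℝ (fv (w t0) v q) (w c) = inner ℝ (fv (w t0) v q) (w c - w t0) := by
    rw [inner_sub_right, real_inner_comm (w t0), inner_x_fv hx hv, hq1, sub_zero]
  have h3 := abs_real_inner_le_norm (fv (w t0) v q) (w c - w t0)
  rw [norm_fv hx hv hq, one_mul] at h3
  have h4 := hw.2 c hc t0 ht0
  rw [h2] at h1
  linarith

theorem frames_disj {κ : ℍ[ℝ] → Fin 10} {δ η : ℝ} (h : GoodCol κ δ) (hη : η < δ)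
    {T : Finset (Fin 10)} {w : Fin 10 → ℍ[ℝ]}
    (hw : (∀ i ∈ T, ‖w i‖ = 1 ∧ κ (w i) = i) ∧ ∀ i ∈ T, ∀ j ∈ T, ‖w i - w j‖ ≤ η)
    {t0 : Fin 10} (ht0 : t0 ∈ T) {l : List ℍ[ℝ]} (hl : ∀ v ∈ l, 1 / 2 ≤ ‖v‖) :
    Disjoint (cs1 (l.map (fr κ (w t0)))) T ∧ Disjoint (cs2 (l.map (fr κ (w t0)))) T ∧
      Disjoint (cs3 (l.map (fr κ (w t0)))) T := by
  refine ⟨?_, ?_, ?_⟩
  · rw [Finset.disjoint_left]
    intro c hc
    obtain ⟨_, hf, rfl⟩ := mem_cs1.mp hc
    obtain ⟨v, hv, rfl⟩ := List.mem_map.mp hf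
    exact col_notMem h hη hw ht0 (ne_zero_of_half_le (hl v hv)) norm_qi inner_one_qi
  · rw [Finset.disjoint_left]
    intro c hc
    obtain ⟨_, hf, rfl⟩ := mem_cs2.mp hc
    obtain ⟨v, hv, rfl⟩ := List.mem_map.mp hf
    exact col_notMem h hη hw ht0 (ne_zero_of_half_le (hl v hv)) norm_qj inner_one_qj
  · rw [Finset.disjoint_left]
    intro c hc
    obtain ⟨_, hf, rfl⟩ := mem_cs3.mp hc
    obtain ⟨v, hv, rfl⟩ := List.mem_map.mp hf
    exact col_notMem h hη hw ht0 (ne_zero_of_half_le (hl v hv)) norm_qk inner_one_qk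

end Crest.Agent.R050
end

-- ▼ part R050/QMaps
section

/-!
# The two right multiplications `Xm`, `Ym` (rid 50): coordinates
-/

namespace Crest.Agent.R050

open scoped Quaternion

theorem Ym_Ym (v : ℍ[ℝ]) : Ym (Ym v) = -v := Ym_sq v

theorem Xm_four (v : ℍ[ℝ]) : Xm (Xm (Xm (Xm v))) = -v := Xm_pow4 v

theorem inner_coord (u v : ℍ[ℝ]) :
    inner ℝ u v = u.re * v.re + u.imI * v.imI + u.imJ * v.imJ + u.imK * v.imK := by
  rw [Quaternion.inner_def]; simp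

end Crest.Agent.R050
end

-- ▼ part R050/Coarse
section

/-!
# Coarse `Q₁₆` chains (rid 50)

Abstract part: `X Y : α → α` with `X⁴ = Y²` and `X Y X = Y`; chains `Ex, Ey, F1, F2, G` with
prescribed boundaries.  Geometric part: the vertices are unit quaternions with pairwise
nonnegative inner products, hence convex hulls stay away from `0`.
-/

namespace Crest.Agent.R050

open scoped Quaternion

namespace Coarse

section abstract_part
variable {α : Type*} (X Y : α → α) (o : α)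

/-- `[o, X o]` -/
noncomputable def Ex : Ch α := sg [o, X o]
/-- `[o, Y o]` -/
noncomputable def Ey : Ch α := sg [o, Y o]
/-- `(1+X+X²+X³) Ex + (1+Y) Ey` -/
noncomputable def z1 : Ch α :=
  (Ex X o + mp X (Ex X o) + mp X (mp X (Ex X o)) + mp X (mp X (mp X (Ex X o))))
    + (Ey Y o + mp Y (Ey Y o))
/-- `cone (Y o) z1` -/
noncomputable def F1 : Ch α := cone (Y o) (z1 X Y o)
/-- `(1+XY) Ex + (1+X) Ey` -/
noncomputable def z2 : Ch α :=
  (Ex X o + mp X (mp Y (Ex X o))) + (Ey Y o + mp X (Ey Y o))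
/-- `cone (Y o) z2` -/
noncomputable def F2 : Ch α := cone (Y o) (z2 X Y o)
/-- `(1+X) F1 + (1+XY) F2` -/
noncomputable def c2 : Ch α :=
  (F1 X Y o + mp X (F1 X Y o)) + (F2 X Y o + mp X (mp Y (F2 X Y o)))
/-- `cone (Y o) c2` -/
noncomputable def G : Ch α := cone (Y o) (c2 X Y o)

theorem bd_pair (a b : α) : bd (sg [a, b]) = sg [a] + sg [b] := by
  rw [bd_cons, bd_cons]
  simp [add_comm]

theorem bd_Ex : bd (Ex X o) = sg [o] + mp X (sg [o]) := by
  rw [Ex, bd_pair]; simp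

theorem bd_Ey : bd (Ey Y o) = sg [o] + mp Y (sg [o]) := by
  rw [Ey, bd_pair]; simp

variable {X Y} (h1 : ∀ v, X (X (X (X v))) = Y (Y v)) (h2 : ∀ v, X (Y (X v)) = Y v)

include h1 in
theorem mp4 (c : Ch α) : mp X (mp X (mp X (mp X c))) = mp Y (mp Y c) := by
  simp only [mp_mp]
  congr 2
  funext v
  simp [h1]

include h2 in
theorem mpXYX (c : Ch α) : mp X (mp Y (mp X c)) = mp Y c := by
  simp only [mp_mp]
  congr 2
  funext v
  simp [h2]

include h1 in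
theorem bd_z1 : bd (z1 X Y o) = 0 := by
  have e : bd (z1 X Y o) =
      ((sg [o] + mp X (sg [o])) + mp X (sg [o] + mp X (sg [o]))
        + mp X (mp X (sg [o] + mp X (sg [o])))
        + mp X (mp X (mp X (sg [o] + mp X (sg [o])))))
      + ((sg [o] + mp Y (sg [o])) + mp Y (sg [o] + mp Y (sg [o]))) := by
    simp only [z1, map_add, ← mp_bd, bd_Ex, bd_Ey]
  rw [e]
  simp only [map_add]
  rw [mp4 h1]
  have t : ∀ m : Ch α, m + m = 0 := two_self
  set a0 := sg [o]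
  set a1 := mp X (sg [o])
  set a2 := mp X a1
  set a3 := mp X a2
  set b1 := mp Y (sg [o])
  set b2 := mp Y b1
  calc a0 + a1 + (a1 + a2) + (a2 + a3) + (a3 + b2) + (a0 + b1 + (b1 + b2))
      = (a0 + a0) + (a1 + a1) + (a2 + a2) + (a3 + a3) + (b1 + b1) + (b2 + b2) := by abel
    _ = 0 := by simp only [t]

include h1 in
theorem bd_F1 : bd (F1 X Y o) = z1 X Y o := by
  rw [F1, bd_cone, bd_z1 o h1]; simp

include h2 in
theorem bd_z2 : bd (z2 X Y o) = 0 := by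
  have e : bd (z2 X Y o) =
      ((sg [o] + mp X (sg [o])) + mp X (mp Y (sg [o] + mp X (sg [o]))))
      + ((sg [o] + mp Y (sg [o])) + mp X (sg [o] + mp Y (sg [o]))) := by
    simp only [z2, map_add, ← mp_bd, bd_Ex, bd_Ey]
  rw [e]
  simp only [map_add]
  rw [mpXYX h2]
  have t : ∀ m : Ch α, m + m = 0 := two_self
  set a0 := sg [o]
  set a1 := mp X (sg [o])
  set b1 := mp Y (sg [o])
  set c1 := mp X b1
  calc a0 + a1 + (c1 + b1) + (a0 + b1 + (a1 + c1))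
      = (a0 + a0) + (a1 + a1) + (b1 + b1) + (c1 + c1) := by abel
    _ = 0 := by simp only [t]

include h2 in
theorem bd_F2 : bd (F2 X Y o) = z2 X Y o := by
  rw [F2, bd_cone, bd_z2 o h2]; simp

include h1 h2 in
theorem bd_c2 : bd (c2 X Y o) = 0 := by
  have e : bd (c2 X Y o) =
      (z1 X Y o + mp X (z1 X Y o)) + (z2 X Y o + mp X (mp Y (z2 X Y o))) := by
    simp only [c2, map_add, ← mp_bd, bd_F1 o h1, bd_F2 o h2]
  rw [e]
  simp only [z1, z2, map_add]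
  rw [mp4 h1]
  have hXY : mp X (mp Y (mp X (mp Y (Ex X o)))) = mp Y (mp Y (Ex X o)) := mpXYX h2 _
  have hXYX : mp X (mp Y (mp X (Ey Y o))) = mp Y (Ey Y o) := mpXYX h2 _
  rw [hXY, hXYX]
  have t : ∀ m : Ch α, m + m = 0 := two_self
  set a0 := Ex X o
  set a1 := mp X a0
  set a2 := mp X a1
  set a3 := mp X a2
  set b0 := Ey Y o
  set b1 := mp Y b0
  set b2 := mp X b0
  set b3 := mp X b1
  set d1 := mp X (mp Y a0)
  set d2 := mp Y (mp Y a0)
  calc a0 + a1 + a2 + a3 + (b0 + b1) + (a1 + a2 + a3 + d2 + (b2 + b3)) +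
        (a0 + d1 + (b0 + b2) + (d1 + d2 + (b3 + b1)))
      = (a0 + a0) + (a1 + a1) + (a2 + a2) + (a3 + a3) + (b0 + b0) + (b1 + b1) + (b2 + b2)
        + (b3 + b3) + (d1 + d1) + (d2 + d2) := by abel
    _ = 0 := by simp only [t]

include h1 h2 in
theorem bd_G : bd (G X Y o) = c2 X Y o := by
  rw [G, bd_cone, bd_c2 o h1 h2]; simp

end abstract_part

/-! ### Geometry of the vertices -/

/-- a list of unit vectors with pairwise nonnegative inner products -/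
structure Acute {E : Type*} [NormedAddCommGroup E] [InnerProductSpace ℝ E] (l : List E) :
    Prop where
  unit : ∀ v ∈ l, ‖v‖ = 1
  ac : ∀ v ∈ l, ∀ w ∈ l, 0 ≤ inner ℝ v w

theorem Acute.norm_ge {E : Type*} [NormedAddCommGroup E] [InnerProductSpace ℝ E] {l : List E}
    (h : Acute l) (hl : l.length ≤ 4) {v : E} (hv : v ∈ convexHull ℝ {x | x ∈ l}) :
    1 / 2 ≤ ‖v‖ := by
  classical
  have hs : {x | x ∈ l} = (↑(l.toFinset) : Set E) := by
    ext x; simp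
  rw [hs, Finset.mem_convexHull'] at hv
  obtain ⟨w, hw0, hw1, rfl⟩ := hv
  have hcard : (l.toFinset.card : ℝ) ≤ 4 := by
    have := (List.toFinset_card_le l).trans hl
    exact_mod_cast this
  have h1 : (1 : ℝ) ≤ 4 * ∑ y ∈ l.toFinset, w y ^ 2 := by
    have := sq_sum_le_card_mul_sum_sq (s := l.toFinset) (f := w)
    rw [hw1] at this
    have h0 : 0 ≤ ∑ y ∈ l.toFinset, w y ^ 2 := Finset.sum_nonneg fun _ _ => sq_nonneg _
    nlinarith
  have h2 : ∑ y ∈ l.toFinset, w y ^ 2 ≤ ‖∑ y ∈ l.toFinset, w y • y‖ ^ 2 := by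
    rw [← real_inner_self_eq_norm_sq, sum_inner]
    refine Finset.sum_le_sum fun y hy => ?_
    rw [inner_sum]
    have hy' : y ∈ l := by simpa using hy
    calc w y ^ 2 = inner ℝ (w y • y) (w y • y) := by
          rw [inner_smul_left, inner_smul_right, real_inner_self_eq_norm_sq, h.unit y hy']
          simp; ring
      _ ≤ ∑ z ∈ l.toFinset, inner ℝ (w y • y) (w z • z) := by
          refine Finset.single_le_sum (f := fun z => inner ℝ (w y • y) (w z • z)) ?_ hy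
          intro z hz
          have hz' : z ∈ l := by simpa using hz
          show 0 ≤ inner ℝ (w y • y) (w z • z)
          rw [inner_smul_left, inner_smul_right]
          have a := hw0 y hy
          have b := hw0 z hz
          have c := h.ac y hy' z hz'
          simp only [conj_trivial]
          positivity
  have h3 : 0 ≤ ‖∑ y ∈ l.toFinset, w y • y‖ := norm_nonneg _
  nlinarith

/-- `P i = Xᵢ 1` -/
noncomputable def Pv (i : ℕ) : ℍ[ℝ] := (fun v => Xm v)^[i] 1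
/-- `Q i = Xᵢ (Y 1)` -/
noncomputable def Qv (i : ℕ) : ℍ[ℝ] := (fun v => Xm v)^[i] (Ym 1)

theorem Pv_succ (i : ℕ) : Pv (i + 1) = Xm (Pv i) := Function.iterate_succ_apply' _ _ _
theorem Qv_succ (i : ℕ) : Qv (i + 1) = Xm (Qv i) := Function.iterate_succ_apply' _ _ _
theorem Pv_zero : Pv 0 = 1 := rfl
theorem Qv_zero : Qv 0 = Ym 1 := rfl

theorem norm_Pv (i : ℕ) : ‖Pv i‖ = 1 := by
  induction i with
  | zero => simp [Pv_zero]
  | succ i ih => rw [Pv_succ, norm_Xm, ih]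

theorem norm_Qv (i : ℕ) : ‖Qv i‖ = 1 := by
  induction i with
  | zero => rw [Qv_zero, norm_Ym]; simp
  | succ i ih => rw [Qv_succ, norm_Xm, ih]

theorem inner_Pv_Pv (i : ℕ) : inner ℝ (Pv i) (Pv (i + 1)) = Real.sqrt 2 / 2 := by
  induction i with
  | zero =>
    rw [Pv_succ, Pv_zero, Xm_apply, one_mul, inner_coord]
    simp [qX_re, qX_imI, qX_imJ, qX_imK]
  | succ i ih => rw [Pv_succ, Pv_succ (i + 1), inner_Xm, ih]

theorem inner_Qv_Qv (i : ℕ) : inner ℝ (Qv i) (Qv (i + 1)) = Real.sqrt 2 / 2 := by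
  induction i with
  | zero =>
    rw [Qv_succ, Qv_zero, Xm_apply, Ym_apply, one_mul, inner_coord]
    simp [qX_re, qX_imI, qX_imJ, qX_imK, qY_re, qY_imI, qY_imJ, qY_imK]
  | succ i ih => rw [Qv_succ, Qv_succ (i + 1), inner_Xm, ih]

theorem Pv_coord (i : ℕ) : (Pv i).imI = 0 ∧ (Pv i).imJ = 0 := by
  induction i with
  | zero => simp [Pv_zero]
  | succ i ih =>
    rw [Pv_succ, Xm_apply]
    simp [qX_re, qX_imI, qX_imJ, qX_imK, ih]

theorem Qv_coord (i : ℕ) : (Qv i).re = 0 ∧ (Qv i).imK = 0 := by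
  induction i with
  | zero =>
    rw [Qv_zero, Ym_apply]
    simp [qY_re, qY_imI, qY_imJ, qY_imK]
  | succ i ih =>
    rw [Qv_succ, Xm_apply]
    simp [qX_re, qX_imI, qX_imJ, qX_imK, ih]

theorem inner_Pv_Qv (i j : ℕ) : inner ℝ (Pv i) (Qv j) = 0 := by
  rw [inner_coord]
  simp [Pv_coord, Qv_coord]

theorem sqrt2_half_nonneg : 0 ≤ Real.sqrt 2 / 2 := by positivity

/-- vertices allowed in one simplex -/
def VL (i : ℕ) (l : List ℍ[ℝ]) : Prop :=
  ∀ v ∈ l, v = Pv i ∨ v = Pv (i + 1) ∨ v = Qv 0 ∨ v = Qv 1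

theorem VL.acute {i : ℕ} {l : List ℍ[ℝ]} (h : VL i l) : Acute l := by
  constructor
  · intro v hv
    rcases h v hv with rfl | rfl | rfl | rfl
    · exact norm_Pv _
    · exact norm_Pv _
    · exact norm_Qv _
    · exact norm_Qv _
  · have n := sqrt2_half_nonneg
    have sp : ∀ i, (0 : ℝ) ≤ inner ℝ (Pv i) (Pv i) := fun i => real_inner_self_nonneg
    have sq : ∀ i, (0 : ℝ) ≤ inner ℝ (Qv i) (Qv i) := fun i => real_inner_self_nonneg
    intro v hv w hw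
    rcases h v hv with rfl | rfl | rfl | rfl <;> rcases h w hw with rfl | rfl | rfl | rfl
    · exact sp _
    · rw [inner_Pv_Pv]; exact n
    · rw [inner_Pv_Qv]
    · rw [inner_Pv_Qv]
    · rw [real_inner_comm, inner_Pv_Pv]; exact n
    · exact sp _
    · rw [inner_Pv_Qv]
    · rw [inner_Pv_Qv]
    · rw [real_inner_comm, inner_Pv_Qv]
    · rw [real_inner_comm, inner_Pv_Qv]
    · exact sq _
    · rw [inner_Qv_Qv 0]; exact n
    · rw [real_inner_comm, inner_Pv_Qv]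
    · rw [real_inner_comm, inner_Pv_Qv]
    · rw [real_inner_comm, inner_Qv_Qv 0]; exact n
    · exact sq _

theorem VL.cons {i : ℕ} {l : List ℍ[ℝ]} (h : VL i l) : VL i (Qv 0 :: l) := by
  intro v hv
  rcases List.mem_cons.1 hv with rfl | hv
  · simp
  · exact h v hv

/-- the support predicate -/
def SP (n : ℕ) (l : List ℍ[ℝ]) : Prop := l.length = n ∧ ∃ i, VL i l

theorem SP.acute {n : ℕ} {l : List ℍ[ℝ]} (h : SP n l) : Acute l := by
  obtain ⟨_, i, hi⟩ := h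
  exact hi.acute

theorem SP.cons {n : ℕ} {l : List ℍ[ℝ]} (h : SP n l) : SP (n + 1) (Qv 0 :: l) := by
  obtain ⟨hn, i, hi⟩ := h
  exact ⟨by simp [hn], i, hi.cons⟩

theorem X_P (i : ℕ) : Xm (Pv i) = Pv (i + 1) := (Pv_succ i).symm
theorem X_Q0 : Xm (Qv 0) = Qv 1 := rfl
theorem Y_P0 : Ym (Pv 0) = Qv 0 := rfl
theorem Y_Q0 : Ym (Qv 0) = Pv 4 := by
  rw [Qv_zero, Ym_Ym, Pv_succ, Pv_succ, Pv_succ, Pv_succ, Pv_zero, Xm_four]
theorem XY_P1 : Xm (Ym (Pv 1)) = Qv 0 := by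
  rw [Pv_succ, Pv_zero, Xm_Ym_Xm]; rfl
theorem XY_Q1 : Xm (Ym (Qv 1)) = Pv 4 := by
  rw [Qv_succ, Xm_Ym_Xm, Y_Q0]
theorem XY_P0 : Xm (Ym (Pv 0)) = Qv 1 := rfl
theorem XY_Q0 : Xm (Ym (Qv 0)) = Pv 5 := by rw [Y_Q0, X_P]

theorem Ex_eq : Ex (fun v => Xm v) (1 : ℍ[ℝ]) = sg [Pv 0, Pv 1] := rfl
theorem Ey_eq : Ey (fun v => Ym v) (1 : ℍ[ℝ]) = sg [Pv 0, Qv 0] := rfl

theorem z1_eq : z1 (fun v => Xm v) (fun v => Ym v) (1 : ℍ[ℝ]) =
    (sg [Pv 0, Pv 1] + sg [Pv 1, Pv 2] + sg [Pv 2, Pv 3] + sg [Pv 3, Pv 4])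
      + (sg [Pv 0, Qv 0] + sg [Qv 0, Pv 4]) := by
  rw [z1, Ex_eq, Ey_eq]
  simp only [mp_sg, List.map_cons, List.map_nil, X_P, Y_P0, Y_Q0]

theorem z2_eq : z2 (fun v => Xm v) (fun v => Ym v) (1 : ℍ[ℝ]) =
    (sg [Pv 0, Pv 1] + sg [Qv 1, Qv 0]) + (sg [Pv 0, Qv 0] + sg [Pv 1, Qv 1]) := by
  rw [z2, Ex_eq, Ey_eq]
  simp only [mp_sg, List.map_cons, List.map_nil, X_P, XY_P0, XY_P1, X_Q0]

theorem F1_eq : F1 (fun v => Xm v) (fun v => Ym v) (1 : ℍ[ℝ]) =
    (sg [Qv 0, Pv 0, Pv 1] + sg [Qv 0, Pv 1, Pv 2] + sg [Qv 0, Pv 2, Pv 3]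
      + sg [Qv 0, Pv 3, Pv 4]) + (sg [Qv 0, Pv 0, Qv 0] + sg [Qv 0, Qv 0, Pv 4]) := by
  rw [F1, z1_eq]
  simp only [map_add, cone_sg]
  rfl

theorem F2_eq : F2 (fun v => Xm v) (fun v => Ym v) (1 : ℍ[ℝ]) =
    (sg [Qv 0, Pv 0, Pv 1] + sg [Qv 0, Qv 1, Qv 0])
      + (sg [Qv 0, Pv 0, Qv 0] + sg [Qv 0, Pv 1, Qv 1]) := by
  rw [F2, z2_eq]
  simp only [map_add, cone_sg]
  rfl

theorem sup_aux (i : ℕ) {l : List ℍ[ℝ]} {n : ℕ} (h1 : l.length = n)
    (h : VL i l) : Sup (SP n) (sg l) := Sup.sg ⟨h1, i, h⟩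

theorem Ex_sup : Sup (SP 2) (Ex (fun v => Xm v) (1 : ℍ[ℝ])) := by
  rw [Ex_eq]
  exact sup_aux 0 rfl (by intro v hv; simp at hv ⊢; tauto)

theorem Ey_sup : Sup (SP 2) (Ey (fun v => Ym v) (1 : ℍ[ℝ])) := by
  rw [Ey_eq]
  exact sup_aux 0 rfl (by intro v hv; simp at hv ⊢; tauto)

theorem F1_sup : Sup (SP 3) (F1 (fun v => Xm v) (fun v => Ym v) (1 : ℍ[ℝ])) := by
  rw [F1_eq]
  refine Sup.add (Sup.add (Sup.add (Sup.add ?_ ?_) ?_) ?_) (Sup.add ?_ ?_)
  · exact sup_aux 0 rfl (by intro v hv; simp at hv ⊢; tauto)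
  · exact sup_aux 1 rfl (by intro v hv; simp at hv ⊢; tauto)
  · exact sup_aux 2 rfl (by intro v hv; simp at hv ⊢; tauto)
  · exact sup_aux 3 rfl (by intro v hv; simp at hv ⊢; tauto)
  · exact sup_aux 0 rfl (by intro v hv; simp at hv ⊢; tauto)
  · exact sup_aux 4 rfl (by intro v hv; simp at hv ⊢; tauto)

theorem F2_sup : Sup (SP 3) (F2 (fun v => Xm v) (fun v => Ym v) (1 : ℍ[ℝ])) := by
  rw [F2_eq]
  refine Sup.add (Sup.add ?_ ?_) (Sup.add ?_ ?_)
  · exact sup_aux 0 rfl (by intro v hv; simp at hv ⊢; tauto)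
  · exact sup_aux 0 rfl (by intro v hv; simp at hv ⊢; tauto)
  · exact sup_aux 0 rfl (by intro v hv; simp at hv ⊢; tauto)
  · exact sup_aux 1 rfl (by intro v hv; simp at hv ⊢; tauto)

theorem G_sup : Sup (SP 4) (G (fun v => Xm v) (fun v => Ym v) (1 : ℍ[ℝ])) := by
  have key : Sup (SP 3) (c2 (fun v => Xm v) (fun v => Ym v) (1 : ℍ[ℝ])) := by
    refine Sup.add (Sup.add F1_sup ?_) (Sup.add F2_sup ?_)
    · rw [F1_eq]
      simp only [map_add, mp_sg, List.map_cons, List.map_nil, X_P, X_Q0]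
      refine Sup.add (Sup.add (Sup.add (Sup.add ?_ ?_) ?_) ?_) (Sup.add ?_ ?_)
      · exact sup_aux 1 rfl (by intro v hv; simp at hv ⊢; tauto)
      · exact sup_aux 2 rfl (by intro v hv; simp at hv ⊢; tauto)
      · exact sup_aux 3 rfl (by intro v hv; simp at hv ⊢; tauto)
      · exact sup_aux 4 rfl (by intro v hv; simp at hv ⊢; tauto)
      · exact sup_aux 1 rfl (by intro v hv; simp at hv ⊢; tauto)
      · exact sup_aux 5 rfl (by intro v hv; simp at hv ⊢; tauto)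
    · rw [F2_eq]
      simp only [map_add, mp_sg, List.map_cons, List.map_nil, XY_P0, XY_P1, XY_Q0, XY_Q1]
      refine Sup.add (Sup.add ?_ ?_) (Sup.add ?_ ?_)
      · exact sup_aux 5 rfl (by intro v hv; simp at hv ⊢; tauto)
      · exact sup_aux 4 rfl (by intro v hv; simp at hv ⊢; tauto)
      · exact sup_aux 5 rfl (by intro v hv; simp at hv ⊢; tauto)
      · exact sup_aux 4 rfl (by intro v hv; simp at hv ⊢; tauto)
  exact Sup.cone key fun l hl => hl.cons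

/-- the final form: vectors in the convex hull of a simplex have norm at least `1/2` -/
theorem SP.norm_ge {n : ℕ} (hn : n ≤ 4) {l : List ℍ[ℝ]} (h : SP n l) {v : ℍ[ℝ]}
    (hv : v ∈ convexHull ℝ {x | x ∈ l}) : 1 / 2 ≤ ‖v‖ :=
  h.acute.norm_ge (h.1.trans_le hn) hv

theorem XY_four (v : ℍ[ℝ]) : Xm (Xm (Xm (Xm v))) = Ym (Ym v) := by
  rw [Xm_four, Ym_Ym]

theorem bdEx : bd (Ex (fun v => Xm v) (1 : ℍ[ℝ])) = sg [1] + mp (fun v => Xm v) (sg [1]) :=
  bd_Ex _ _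

theorem bdEy : bd (Ey (fun v => Ym v) (1 : ℍ[ℝ])) = sg [1] + mp (fun v => Ym v) (sg [1]) :=
  bd_Ey _ _

theorem bdF1 : bd (F1 (fun v => Xm v) (fun v => Ym v) (1 : ℍ[ℝ]))
    = z1 (fun v => Xm v) (fun v => Ym v) (1 : ℍ[ℝ]) := bd_F1 _ XY_four

theorem bdF2 : bd (F2 (fun v => Xm v) (fun v => Ym v) (1 : ℍ[ℝ]))
    = z2 (fun v => Xm v) (fun v => Ym v) (1 : ℍ[ℝ]) := bd_F2 _ Xm_Ym_Xm

theorem bdG : bd (G (fun v => Xm v) (fun v => Ym v) (1 : ℍ[ℝ]))
    = c2 (fun v => Xm v) (fun v => Ym v) (1 : ℍ[ℝ]) := bd_G _ XY_four Xm_Ym_Xm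

end Coarse

end Crest.Agent.R050
end

-- ▼ part R050/BU
section

/-!
# A four-colour cluster exists (Borsuk–Ulam / Fan on `S³`), for rid 50 (S0069)
-/

namespace Crest.Agent.R050

open scoped Quaternion

/-- the standard basis of the quaternions -/
noncomputable def eq4 : ℕ → ℍ[ℝ]
  | 0 => ⟨1, 0, 0, 0⟩
  | 1 => ⟨0, 1, 0, 0⟩
  | 2 => ⟨0, 0, 1, 0⟩
  | _ => ⟨0, 0, 0, 1⟩

/-- the antipodal map as a linear map -/
noncomputable def zneg : ℍ[ℝ] →ₗ[ℝ] ℍ[ℝ] := -LinearMap.id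

@[simp] theorem zneg_apply (v : ℍ[ℝ]) : zneg v = -v := by simp [zneg]

theorem mp_zneg_zneg (c : Ch ℍ[ℝ]) : mp zneg (mp zneg c) = c := by
  rw [mp_mp]
  have : ((zneg : ℍ[ℝ] → ℍ[ℝ]) ∘ zneg) = fun a => a := by
    funext v; simp
  rw [this, mp_id]

/-- the antipodal cell chains -/
noncomputable def bq : ℕ → Ch ℍ[ℝ]
  | 0 => sg [eq4 0]
  | n + 1 => cone (eq4 (n + 1)) (bq n + mp zneg (bq n))

theorem bd_bq_zero : bd (bq 0) = sg [] := by
  simp [bq, bd_cons]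

theorem bd_bq_sym (n : ℕ) : bd (bq n + mp zneg (bq n)) = 0 ∧
    bd (bq (n + 1)) = bq n + mp zneg (bq n) := by
  induction n with
  | zero =>
    have h : bd (bq 0 + mp zneg (bq 0)) = 0 := by
      rw [map_add, ← mp_bd, bd_bq_zero, mp_sg]
      simpa using two_self (sg ([] : List ℍ[ℝ]))
    refine ⟨h, ?_⟩
    rw [show bq (0 + 1) = cone (eq4 (0 + 1)) (bq 0 + mp zneg (bq 0)) from rfl, bd_cone, h,
      map_zero, add_zero]
  | succ n ih =>
    obtain ⟨_, h2⟩ := ih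
    have h : bd (bq (n + 1) + mp zneg (bq (n + 1))) = 0 := by
      rw [map_add, ← mp_bd, h2, map_add, mp_zneg_zneg, add_comm (mp zneg (bq n)) (bq n)]
      exact two_self _
    refine ⟨h, ?_⟩
    rw [show bq (n + 1 + 1) = cone (eq4 (n + 1 + 1)) (bq (n + 1) + mp zneg (bq (n + 1))) from rfl,
      bd_cone, h, map_zero, add_zero]

theorem bd_bq (n : ℕ) : bd (bq (n + 1)) = bq n + mp zneg (bq n) := (bd_bq_sym n).2

theorem norm_eq4 (i : ℕ) : ‖eq4 i‖ = 1 := by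
  have h : ‖eq4 i‖ ^ 2 = 1 := by
    rw [← real_inner_self_eq_norm_sq, Quaternion.inner_def]
    rcases i with _ | _ | _ | _ <;> simp [eq4]
  nlinarith [norm_nonneg (eq4 i)]

theorem inner_eq4 (i j : ℕ) (hij : i < j) (hj : j ≤ 3) : inner ℝ (eq4 j) (eq4 i) = 0 := by
  rw [Quaternion.inner_def]
  have hi : i ≤ 2 := by omega
  interval_cases j <;> interval_cases i <;> simp [eq4] at *

/-- simplices of `bq n`: pairwise orthogonal unit vectors `± e_i` -/
def PB (n : ℕ) (l : List ℍ[ℝ]) : Prop :=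
  l.length = n + 1 ∧ (∀ v ∈ l, ∃ i ≤ n, v = eq4 i ∨ v = -eq4 i) ∧
    l.Pairwise (fun v w => inner ℝ v w = 0)

theorem PB.neg {n : ℕ} {l : List ℍ[ℝ]} (h : PB n l) : PB n (l.map zneg) := by
  obtain ⟨h1, h2, h3⟩ := h
  refine ⟨by simpa using h1, ?_, ?_⟩
  · intro v hv
    obtain ⟨w, hw, rfl⟩ := List.mem_map.1 hv
    obtain ⟨i, hi, h | h⟩ := h2 w hw
    · exact ⟨i, hi, Or.inr (by rw [h]; simp)⟩
    · exact ⟨i, hi, Or.inl (by rw [h]; simp)⟩
  · rw [List.pairwise_map]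
    refine h3.imp ?_
    intro v w hvw
    simpa using hvw

theorem Sup_bq (n : ℕ) (hn : n ≤ 3) : Sup (PB n) (bq n) := by
  induction n with
  | zero =>
    refine Sup.sg ⟨rfl, ?_, ?_⟩
    · intro v hv
      exact ⟨0, le_rfl, Or.inl (by simpa using hv)⟩
    · simp
  | succ n ih =>
    have h := ih (by omega)
    refine Sup.cone (P := PB n) (Sup.add h (Sup.mp h fun l hl => hl.neg)) ?_
    rintro l ⟨h1, h2, h3⟩
    refine ⟨by simp [h1], ?_, ?_⟩
    · intro v hv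
      rcases List.mem_cons.1 hv with rfl | hv
      · exact ⟨n + 1, le_rfl, Or.inl rfl⟩
      · obtain ⟨i, hi, h⟩ := h2 v hv
        exact ⟨i, by omega, h⟩
    · rw [List.pairwise_cons]
      refine ⟨?_, h3⟩
      intro v hv
      obtain ⟨i, hi, h | h⟩ := h2 v hv
      · rw [h]; exact inner_eq4 i (n + 1) (by omega) hn
      · rw [h, inner_neg_right, inner_eq4 i (n + 1) (by omega) hn, neg_zero]

theorem PB.norm {n : ℕ} {l : List ℍ[ℝ]} (h : PB n l) : ∀ v ∈ l, ‖v‖ = 1 := by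
  intro v hv
  obtain ⟨i, _, h | h⟩ := h.2.1 v hv
  · rw [h, norm_eq4]
  · rw [h, norm_neg, norm_eq4]

theorem inner_list_sum_eq_zero (a : ℍ[ℝ]) (l : List ℍ[ℝ]) (h : ∀ w ∈ l, inner ℝ a w = 0) :
    inner ℝ a l.sum = 0 := by
  induction l with
  | nil => simp
  | cons b l ih =>
    rw [List.sum_cons, inner_add_right, h b List.mem_cons_self,
      ih fun w hw => h w (List.mem_cons_of_mem _ hw), add_zero]

theorem orth_sum (l : List ℍ[ℝ]) (h1 : ∀ v ∈ l, ‖v‖ = 1)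
    (h2 : l.Pairwise (fun v w => inner ℝ v w = 0)) :
    (∀ w ∈ l, inner ℝ w l.sum = 1) ∧ ‖l.sum‖ ^ 2 = l.length := by
  induction l with
  | nil => simp
  | cons a l ih =>
    rw [List.pairwise_cons] at h2
    obtain ⟨h2, h3⟩ := h2
    obtain ⟨i1, i2⟩ := ih (fun v hv => h1 v (List.mem_cons_of_mem _ hv)) h3
    have ha : inner ℝ a l.sum = 0 := inner_list_sum_eq_zero a l h2
    have haa : inner ℝ a a = 1 := by
      rw [real_inner_self_eq_norm_sq, h1 a List.mem_cons_self]; norm_num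
    refine ⟨?_, ?_⟩
    · intro w hw
      rcases List.mem_cons.1 hw with rfl | hw
      · rw [List.sum_cons, inner_add_right, haa, ha, add_zero]
      · rw [List.sum_cons, inner_add_right, i1 w hw, real_inner_comm, h2 w hw, zero_add]
    · rw [List.sum_cons, ← real_inner_self_eq_norm_sq, inner_add_left, inner_add_right,
        inner_add_right, haa, ha, real_inner_comm, ha, real_inner_self_eq_norm_sq, i2,
        List.length_cons]
      push_cast; ring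

theorem PB.hull {n : ℕ} (hn : n ≤ 3) {l : List ℍ[ℝ]} (h : PB n l) :
    ∀ v ∈ convexHull ℝ {w | w ∈ l}, 1 / 2 ≤ ‖v‖ := by
  obtain ⟨i1, i2⟩ := orth_sum l h.norm h.2.2
  have hσ : ‖l.sum‖ ≤ 2 := by
    have : ‖l.sum‖ ^ 2 ≤ 4 := by
      rw [i2, h.1]
      have : ((n : ℝ)) ≤ 3 := by exact_mod_cast hn
      push_cast; linarith
    nlinarith [norm_nonneg l.sum]
  intro v hv
  have hsub : convexHull ℝ {w | w ∈ l} ⊆ {w | (1 : ℝ) ≤ inner ℝ l.sum w} := by
    apply convexHull_min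
    · intro w hw
      have := i1 w hw
      rw [real_inner_comm] at this
      exact this.ge
    · exact convex_halfSpace_ge (innerₛₗ ℝ l.sum).isLinear 1
  have h1 : (1 : ℝ) ≤ inner ℝ l.sum v := hsub hv
  have h2 : inner ℝ l.sum v ≤ ‖l.sum‖ * ‖v‖ := real_inner_le_norm _ _
  nlinarith [norm_nonneg v, norm_nonneg l.sum]

theorem norm_normalize_sub_le {v w : ℍ[ℝ]} (hv : 1 / 2 ≤ ‖v‖) (hw : 1 / 2 ≤ ‖w‖) :
    ‖‖v‖⁻¹ • v - ‖w‖⁻¹ • w‖ ≤ 4 * ‖v - w‖ := by
  have hv0 : 0 < ‖v‖ := by linarith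
  have hw0 : 0 < ‖w‖ := by linarith
  have e : ‖v‖⁻¹ • v - ‖w‖⁻¹ • w = ‖v‖⁻¹ • (v - w) + (‖v‖⁻¹ - ‖w‖⁻¹) • w := by
    rw [smul_sub, sub_smul]; abel
  have h1 : ‖‖v‖⁻¹ • (v - w)‖ ≤ 2 * ‖v - w‖ := by
    rw [norm_smul, norm_inv, norm_norm]
    apply mul_le_mul_of_nonneg_right _ (norm_nonneg _)
    rw [inv_le_comm₀ hv0 (by norm_num)]; linarith
  have h2 : ‖(‖v‖⁻¹ - ‖w‖⁻¹) • w‖ ≤ 2 * ‖v - w‖ := by
    rw [norm_smul, Real.norm_eq_abs]
    have h3 : (‖v‖⁻¹ - ‖w‖⁻¹) = ‖v‖⁻¹ * ((‖w‖ - ‖v‖) * ‖w‖⁻¹) := by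
      field_simp
    rw [h3, abs_mul, abs_mul, abs_of_pos (inv_pos.2 hv0), abs_of_pos (inv_pos.2 hw0)]
    have h4 : |‖w‖ - ‖v‖| ≤ ‖v - w‖ := by
      rw [abs_sub_comm]; exact abs_norm_sub_norm_le v w
    have h5 : ‖v‖⁻¹ * (|‖w‖ - ‖v‖| * ‖w‖⁻¹) * ‖w‖ = ‖v‖⁻¹ * |‖w‖ - ‖v‖| := by
      field_simp
    rw [h5]
    have h6 : ‖v‖⁻¹ ≤ 2 := by
      rw [inv_le_comm₀ hv0 (by norm_num)]; linarith
    exact mul_le_mul h6 h4 (abs_nonneg _) (by norm_num)
  rw [e]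
  calc _ ≤ _ := norm_add_le _ _
    _ ≤ 4 * ‖v - w‖ := by linarith

section lab
variable {κ : ℍ[ℝ] → Fin 10} {δ : ℝ}

/-- reference vectors of the colours -/
def IsRef (κ : ℍ[ℝ] → Fin 10) (u : Fin 10 → ℍ[ℝ]) : Prop :=
  ∀ i, (∃ w, ‖w‖ = 1 ∧ κ w = i) → ‖u i‖ = 1 ∧ κ (u i) = i

theorem exists_ref (κ : ℍ[ℝ] → Fin 10) : ∃ u, IsRef κ u := by
  classical
  have h : ∀ i : Fin 10, ∃ w : ℍ[ℝ], (∃ w, ‖w‖ = 1 ∧ κ w = i) → ‖w‖ = 1 ∧ κ w = i := by
    intro i
    by_cases hi : ∃ w, ‖w‖ = 1 ∧ κ w = i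
    · obtain ⟨w, hw⟩ := hi
      exact ⟨w, fun _ => hw⟩
    · exact ⟨0, fun h => absurd h hi⟩
  choose u hu using h
  exact ⟨u, hu⟩

theorem ref_bound (h : GoodCol κ δ) {u : Fin 10 → ℍ[ℝ]} (hu : IsRef κ u) (v : ℍ[ℝ])
    (hv : 1 / 2 ≤ ‖v‖) : δ / 2 ≤ |inner ℝ v (u (κ v))| ∧ ‖u (κ v)‖ = 1 := by
  have hv0 : 0 < ‖v‖ := by linarith
  have hn : ‖‖v‖⁻¹ • v‖ = 1 := by
    rw [norm_smul, norm_inv, norm_norm, inv_mul_cancel₀ hv0.ne']
  have hk : κ (‖v‖⁻¹ • v) = κ v := h.scal _ _ (inv_ne_zero hv0.ne')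
  obtain ⟨h1, h2⟩ := hu (κ v) ⟨_, hn, hk⟩
  refine ⟨?_, h1⟩
  have h3 := h.sep (‖v‖⁻¹ • v) (u (κ v)) hn h1 (by rw [hk, h2])
  rw [inner_smul_left, abs_mul] at h3
  simp only [conj_trivial, abs_inv, abs_norm] at h3
  have h4 : δ * ‖v‖ ≤ |inner ℝ v (u (κ v))| := by
    have := mul_le_mul_of_nonneg_left h3 hv0.le
    rw [← mul_assoc, mul_inv_cancel₀ hv0.ne', one_mul] at this
    linarith
  nlinarith [h.pos]

/-- the signed labelling -/
noncomputable def labq (κ : ℍ[ℝ] → Fin 10) (u : Fin 10 → ℍ[ℝ]) (v : ℍ[ℝ]) : Lab :=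
  open Classical in ((κ v : ℕ), decide (0 < inner ℝ v (u (κ v))))

theorem lab_neg (h : GoodCol κ δ) {u : Fin 10 → ℍ[ℝ]} (hu : IsRef κ u) (v : ℍ[ℝ])
    (hv : 1 / 2 ≤ ‖v‖) : labq κ u (zneg v) = lneg (labq κ u v) := by
  have hk : κ (-v) = κ v := by
    have := h.scal (-1) v (by norm_num)
    simpa using this
  have hb := (ref_bound h hu v hv).1
  have hne : inner ℝ v (u (κ v)) ≠ 0 := by
    intro h0
    rw [h0, abs_zero] at hb
    linarith [h.pos]
  unfold labq lneg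
  rw [zneg_apply, hk, inner_neg_left]
  refine Prod.ext rfl ?_
  simp only
  rcases lt_or_gt_of_ne hne with h1 | h1
  · have h2 : ¬ (0 < inner ℝ v (u (κ v))) := by linarith
    simp [h1, h2]
  · have h2 : ¬ (0 < -inner ℝ v (u (κ v))) := by linarith
    simp [h1, h2]

theorem lab_ne (h : GoodCol κ δ) {u : Fin 10 → ℍ[ℝ]} (hu : IsRef κ u) (v w : ℍ[ℝ])
    (hv : 1 / 2 ≤ ‖v‖) (hw : 1 / 2 ≤ ‖w‖) (hvw : dist v w ≤ δ / 2) :
    labq κ u v ≠ lneg (labq κ u w) := by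
  intro heq
  have h1 : κ v = κ w := by
    have := congrArg Prod.fst heq
    simp only [labq, lneg] at this
    exact Fin.ext this
  have h2 := congrArg Prod.snd heq
  simp only [labq, lneg] at h2
  obtain ⟨b1, n1⟩ := ref_bound h hu v hv
  obtain ⟨b2, n2⟩ := ref_bound h hu w hw
  rw [← h1] at b2 h2
  set U := u (κ v)
  have h3 : |inner ℝ v U - inner ℝ w U| ≤ δ / 2 := by
    rw [← inner_sub_left]
    calc |inner ℝ (v - w) U| ≤ ‖v - w‖ * ‖U‖ := abs_real_inner_le_norm _ _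
      _ = dist v w := by rw [n1, mul_one, dist_eq_norm]
      _ ≤ δ / 2 := hvw
  have hpos := h.pos
  have h4 := abs_le.1 h3
  by_cases c1 : 0 < inner ℝ v U <;> by_cases c2 : 0 < inner ℝ w U
  · simp [c1, c2] at h2
  · rw [abs_of_pos c1] at b1
    rw [abs_of_nonpos (not_lt.1 c2)] at b2
    linarith [h4.2]
  · rw [abs_of_pos c2] at b2
    rw [abs_of_nonpos (not_lt.1 c1)] at b1
    linarith [h4.1]
  · simp [c1, c2] at h2

end lab

/-- the statement of the Fan ladder lemma (see `Fan.lean`) -/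
def FanLadder : Prop :=
  ∀ (z : ℍ[ℝ] → ℍ[ℝ]) (lab : ℍ[ℝ] → Lab) (C : ℕ → Ch ℍ[ℝ]) (n : ℕ), n ≤ 3 →
    bd (C 0) = sg [] → (∀ k, k < n → bd (C (k + 1)) = C k + mp z (C k)) →
    (∀ k, k ≤ n → Sup (fun l => l.length = k + 1 ∧ (∀ v ∈ l, lab (z v) = lneg (lab v)) ∧
      ∀ v ∈ l, ∀ w ∈ l, lab v ≠ lneg (lab w)) (C k)) →
    ev alt (mp lab (C n + mp z (C n))) = 1

theorem exists_quad_of_fan (hfan : FanLadder) {κ : ℍ[ℝ] → Fin 10} {δ : ℝ} (h : GoodCol κ δ)
    {η : ℝ} (hη : 0 < η) : ∃ T : Finset (Fin 10), T.card = 4 ∧ Nv κ η T := by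
  classical
  obtain ⟨u, hu⟩ := exists_ref κ
  have hμ : 0 < min (δ / 2) (η / 4) := lt_min (by linarith [h.pos]) (by linarith)
  obtain ⟨m, hm⟩ := exists_pow_lt_of_lt_one (half_pos hμ) (show (3 / 4 : ℝ) < 1 by norm_num)
  have hm2 : (3 / 4 : ℝ) ^ m * 2 ≤ min (δ / 2) (η / 4) := by linarith
  have hmδ : (3 / 4 : ℝ) ^ m * 2 ≤ δ / 2 := hm2.trans (min_le_left _ _)
  have hmη : (3 / 4 : ℝ) ^ m * 2 ≤ η / 4 := hm2.trans (min_le_right _ _)
  -- the subdivided chains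
  have hsup : ∀ k, k ≤ 3 → Sup (fun l => l.length = k + 1 ∧ (∀ v ∈ l, 1 / 2 ≤ ‖v‖) ∧
      ∀ v ∈ l, ∀ w ∈ l, dist v w ≤ (3 / 4 : ℝ) ^ m * 2) (SdI (k + 1) m (bq k)) := by
    intro k hk
    refine Sup.mono (Sup_SdI_chain (k + 1) (by omega) m (PB k) (bq k) 2 (Sup_bq k hk) ?_) ?_
    · intro l hl
      refine ⟨hl.1, fun v hv w hw => ?_⟩
      calc dist v w ≤ ‖v‖ + ‖w‖ := by rw [dist_eq_norm]; exact norm_sub_le _ _
        _ = 2 := by rw [hl.norm v hv, hl.norm w hw]; norm_num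
    · rintro l' ⟨a, ⟨l, hl, b⟩, c⟩
      exact ⟨a, fun v hv => hl.hull hk v (b v hv), c⟩
  have key : ev alt (mp (labq κ u) (SdI 4 m (bq 3) + mp zneg (SdI 4 m (bq 3)))) = 1 := by
    refine hfan zneg (labq κ u) (fun k => SdI (k + 1) m (bq k)) 3 le_rfl ?_ ?_ ?_
    · show bd (SdI 1 m (bq 0)) = sg []
      rw [bd_SdI, bd_bq_zero, SdI_zero_left]
    · intro k _
      show bd (SdI (k + 1 + 1) m (bq (k + 1))) = SdI (k + 1) m (bq k) +
        mp zneg (SdI (k + 1) m (bq k))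
      rw [bd_SdI, bd_bq, map_add, mp_SdI]
    · intro k hk
      refine Sup.mono (hsup k hk) ?_
      rintro l ⟨a, b, c⟩
      exact ⟨a, fun v hv => lab_neg h hu v (b v hv), fun v hv w hw =>
        lab_ne h hu v w (b v hv) (b w hw) ((c v hv w hw).trans hmδ)⟩
  rw [ev_mp] at key
  have hsup4 : Sup (fun l => l.length = 4 ∧ (∀ v ∈ l, 1 / 2 ≤ ‖v‖) ∧
      ∀ v ∈ l, ∀ w ∈ l, dist v w ≤ (3 / 4 : ℝ) ^ m * 2)
      (SdI 4 m (bq 3) + mp zneg (SdI 4 m (bq 3))) := by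
    refine Sup.add (hsup 3 le_rfl) (Sup.mp (hsup 3 le_rfl) ?_)
    rintro l ⟨a, b, c⟩
    refine ⟨by simpa using a, ?_, ?_⟩
    · intro v hv
      obtain ⟨w, hw, rfl⟩ := List.mem_map.1 hv
      simpa using b w hw
    · intro v hv w hw
      obtain ⟨v', hv', rfl⟩ := List.mem_map.1 hv
      obtain ⟨w', hw', rfl⟩ := List.mem_map.1 hw
      have := c v' hv' w' hw'
      simpa [dist_neg_neg] using this
  obtain ⟨l, ⟨hlen, hnorm, hdist⟩, hl⟩ :=
    exists_of_ev_ne_zero hsup4 (by rw [key]; exact one_ne_zero)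
  have hnod : ((l.map (labq κ u)).map Prod.fst).Nodup := by
    by_contra hcon
    apply hl
    simp only [alt]
    rw [if_neg]
    intro h'
    exact hcon h'.1
  have hnod2 : (l.map κ).Nodup := by
    have e : (l.map (labq κ u)).map Prod.fst = (l.map κ).map (fun i : Fin 10 => (i : ℕ)) := by
      rw [List.map_map, List.map_map]
      rfl
    rw [e] at hnod
    exact List.Nodup.of_map _ hnod
  refine ⟨(l.map κ).toFinset, ?_, ?_⟩
  · rw [List.toFinset_card_of_nodup hnod2, List.length_map, hlen]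
  · have hex : ∀ i : Fin 10, ∃ v : ℍ[ℝ], i ∈ (l.map κ).toFinset → v ∈ l ∧ κ v = i := by
      intro i
      by_cases hi : i ∈ (l.map κ).toFinset
      · obtain ⟨v, hv, hv'⟩ := List.mem_map.1 (List.mem_toFinset.1 hi)
        exact ⟨v, fun _ => ⟨hv, hv'⟩⟩
      · exact ⟨0, fun h => absurd h hi⟩
    choose v hv using hex
    refine ⟨fun i => ‖v i‖⁻¹ • v i, ?_, ?_⟩
    · intro i hi
      obtain ⟨h1, h2⟩ := hv i hi
      have h0 : 0 < ‖v i‖ := by linarith [hnorm _ h1]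
      refine ⟨?_, ?_⟩
      · rw [norm_smul, norm_inv, norm_norm, inv_mul_cancel₀ h0.ne']
      · rw [h.scal _ _ (inv_ne_zero h0.ne'), h2]
    · intro i hi j hj
      obtain ⟨h1, _⟩ := hv i hi
      obtain ⟨h2, _⟩ := hv j hj
      calc _ ≤ 4 * ‖v i - v j‖ := norm_normalize_sub_le (hnorm _ h1) (hnorm _ h2)
        _ ≤ 4 * ((3 / 4 : ℝ) ^ m * 2) := by
          rw [← dist_eq_norm]
          linarith [hdist _ h1 _ h2]
        _ ≤ η := by linarith

theorem fanLadder : FanLadder := fun z lab C n _ h0 hb hs =>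
  fan_ladder' z lab C n h0 hb fun k hk => (hs k hk).mono fun _ hl => ⟨hl.2.2, hl.2.1⟩

/-- Some four colours are realised in a small cluster. -/
theorem exists_quad {κ : ℍ[ℝ] → Fin 10} {δ : ℝ} (h : GoodCol κ δ) {η : ℝ} (hη : 0 < η) :
    ∃ T : Finset (Fin 10), T.card = 4 ∧ Nv κ η T :=
  exists_quad_of_fan fanLadder h hη

end Crest.Agent.R050
private theorem rz_fdca3f6e56 : type_of% @_root_.Crest.Agent.R050.bq.eq_def := @_root_.Crest.Agent.R050.bq.eq_def -- L32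
private theorem rz_70ad503239 : type_of% @_root_.Crest.Agent.R050.bq.eq_1 := @_root_.Crest.Agent.R050.bq.eq_1 -- L32
private theorem rz_6c912486d7 : type_of% @_root_.Crest.Agent.R050.eq4.eq_1 := @_root_.Crest.Agent.R050.eq4.eq_1 -- L14
end

-- ▼ part R050/Geo
section

/-!
# Geometric facts on the nerve `Nv` (rid 50, S0069)
-/

namespace Crest.Agent.R050

open scoped Quaternion

variable {κ : ℍ[ℝ] → Fin 10} {δ η : ℝ}

theorem Nv_down {s t : Finset (Fin 10)} (hs : Nv κ η s) (hts : t ⊆ s) : Nv κ η t := by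
  obtain ⟨w, h1, h2⟩ := hs
  exact ⟨w, fun i hi => h1 i (hts hi), fun i hi j hj => h2 i (hts hi) j (hts hj)⟩

/-- in the four dimensional space of quaternions there is a unit vector orthogonal to three
given ones -/
theorem exists_unit_orth (x y z : ℍ[ℝ]) :
    ∃ u : ℍ[ℝ], ‖u‖ = 1 ∧ inner ℝ x u = 0 ∧ inner ℝ y u = 0 ∧ inner ℝ z u = 0 := by
  classical
  set K : Submodule ℝ ℍ[ℝ] := Submodule.span ℝ (({x, y, z} : Finset ℍ[ℝ]) : Set ℍ[ℝ]) with hK
  have h1 : Module.finrank ℝ K ≤ 3 := by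
    refine (finrank_span_finset_le_card (R := ℝ) ({x, y, z} : Finset ℍ[ℝ])).trans ?_
    exact Finset.card_le_three
  have h4 : Module.finrank ℝ ℍ[ℝ] = 4 := Quaternion.finrank_eq_four
  have h2 : Module.finrank ℝ K + Module.finrank ℝ Kᗮ = Module.finrank ℝ ℍ[ℝ] :=
    Submodule.finrank_add_finrank_orthogonal K
  have h3 : 0 < Module.finrank ℝ Kᗮ := by omega
  have : Nontrivial Kᗮ := Module.finrank_pos_iff.1 h3
  obtain ⟨⟨v, hv⟩, hv0⟩ := exists_ne (0 : Kᗮ)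
  have hv0' : v ≠ 0 := by
    intro h; apply hv0; ext1; exact h
  have hn : ‖v‖ ≠ 0 := norm_ne_zero_iff.2 hv0'
  have key : ∀ a ∈ ({x, y, z} : Finset ℍ[ℝ]), inner ℝ a (‖v‖⁻¹ • v) = 0 := by
    intro a ha
    have : inner ℝ a v = 0 := by
      rw [Submodule.mem_orthogonal] at hv
      exact hv a (Submodule.subset_span (by exact_mod_cast ha))
    rw [inner_smul_right, this, mul_zero]
  refine ⟨‖v‖⁻¹ • v, ?_, key x (by simp), key y (by simp), key z (by simp)⟩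
  rw [norm_smul, norm_inv, norm_norm, inv_mul_cancel₀ hn]

/-- a unit vector orthogonal to a member of a small cluster avoids the colours of the cluster -/
theorem color_notMem {s : Finset (Fin 10)} (h : GoodCol κ δ) (hη : η < δ)
    {w : Fin 10 → ℍ[ℝ]} (h1 : ∀ i ∈ s, ‖w i‖ = 1 ∧ κ (w i) = i)
    (h2 : ∀ i ∈ s, ∀ j ∈ s, ‖w i - w j‖ ≤ η) {i0 : Fin 10} (hi0 : i0 ∈ s)
    {u : ℍ[ℝ]} (hu : ‖u‖ = 1) (ho : inner ℝ (w i0) u = 0) : κ u ∉ s := by
  intro hmem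
  have hs := h.sep (w (κ u)) u (h1 _ hmem).1 hu (h1 _ hmem).2
  have : inner ℝ (w (κ u)) u = inner ℝ (w (κ u) - w i0) u := by
    rw [inner_sub_left, ho, sub_zero]
  rw [this] at hs
  have h3 := abs_real_inner_le_norm (w (κ u) - w i0) u
  rw [hu, mul_one] at h3
  have h4 := h2 _ hmem _ hi0
  linarith

/-- normalised form: for every set with a witness there is a point `x` such that all unit vectors
orthogonal to `x` avoid the set -/
theorem Nv_point {s : Finset (Fin 10)} (h : GoodCol κ δ) (hη : η < δ) (hs : Nv κ η s) :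
    ∃ x : ℍ[ℝ], ∀ u : ℍ[ℝ], ‖u‖ = 1 → inner ℝ x u = 0 → κ u ∉ s := by
  obtain ⟨w, h1, h2⟩ := hs
  rcases s.eq_empty_or_nonempty with rfl | ⟨i0, hi0⟩
  · exact ⟨0, fun u _ _ => by simp⟩
  · exact ⟨w i0, fun u hu ho => color_notMem h hη h1 h2 hi0 hu ho⟩

theorem Nv_three {a b c : Finset (Fin 10)} (h : GoodCol κ δ) (hη : η < δ)
    (ha : Nv κ η a) (hb : Nv κ η b) (hc : Nv κ η c) : a ∪ b ∪ c ≠ Finset.univ := by
  intro hu
  obtain ⟨x, hx⟩ := Nv_point h hη ha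
  obtain ⟨y, hy⟩ := Nv_point h hη hb
  obtain ⟨z, hz⟩ := Nv_point h hη hc
  obtain ⟨u, hu1, hux, huy, huz⟩ := exists_unit_orth x y z
  have : κ u ∈ a ∪ b ∪ c := by rw [hu]; exact Finset.mem_univ _
  rcases Finset.mem_union.1 this with h' | h'
  · rcases Finset.mem_union.1 h' with h'' | h''
    · exact hx u hu1 hux h''
    · exact hy u hu1 huy h''
  · exact hz u hu1 huz h'

/-- functions on the real line which do not change along small steps are constant -/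
theorem real_const {α : Type*} {g : ℝ → α} {ε : ℝ} (hε : 0 < ε)
    (h : ∀ a b : ℝ, |a - b| ≤ ε → g a = g b) (a b : ℝ) : g a = g b := by
  have hl : IsLocallyConstant g := by
    rw [IsLocallyConstant.iff_eventually_eq]
    intro x
    filter_upwards [Metric.ball_mem_nhds x hε] with y hy
    apply h
    have := Metric.mem_ball.1 hy
    rw [Real.dist_eq] at this
    exact this.le
  exact hl.apply_eq_of_preconnectedSpace a b

/-- the point with angle `t` on the circle through the orthonormal pair `u, u'` -/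
noncomputable def circ (u u' : ℍ[ℝ]) (t : ℝ) : ℍ[ℝ] := Real.cos t • u + Real.sin t • u'

theorem circ_zero (u u' : ℍ[ℝ]) : circ u u' 0 = u := by simp [circ]

theorem circ_half (u u' : ℍ[ℝ]) : circ u u' (Real.pi / 2) = u' := by simp [circ]

theorem circ_norm {u u' : ℍ[ℝ]} (hu : ‖u‖ = 1) (hu' : ‖u'‖ = 1) (ho : inner ℝ u u' = 0) (t : ℝ) :
    ‖circ u u' t‖ = 1 := by
  have h : ‖circ u u' t‖ ^ 2 = 1 := by
    rw [circ, norm_add_sq_real, norm_smul, norm_smul, hu, hu', inner_smul_left, inner_smul_right,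
      ho]
    simp only [Real.norm_eq_abs, mul_one, sq_abs, mul_zero, add_zero]
    exact Real.cos_sq_add_sin_sq t
  have h0 : (0 : ℝ) ≤ ‖circ u u' t‖ := norm_nonneg _
  nlinarith

theorem circ_orth {x u u' : ℍ[ℝ]} (h : inner ℝ x u = 0) (h' : inner ℝ x u' = 0) (t : ℝ) :
    inner ℝ x (circ u u' t) = 0 := by
  rw [circ, inner_add_right, inner_smul_right, inner_smul_right, h, h']
  simp

theorem circ_lip {u u' : ℍ[ℝ]} (hu : ‖u‖ = 1) (hu' : ‖u'‖ = 1) (a b : ℝ) :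
    ‖circ u u' a - circ u u' b‖ ≤ 2 * |a - b| := by
  have e : circ u u' a - circ u u' b
      = (Real.cos a - Real.cos b) • u + (Real.sin a - Real.sin b) • u' := by
    simp only [circ, sub_smul]; abel
  rw [e]
  refine (norm_add_le _ _).trans ?_
  rw [norm_smul, norm_smul, hu, hu', mul_one, mul_one, Real.norm_eq_abs, Real.norm_eq_abs]
  have h1 : |Real.cos a - Real.cos b| ≤ |a - b| := by
    have := Real.lipschitzWith_cos.dist_le_mul a b
    simpa [Real.dist_eq] using this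
  have h2 : |Real.sin a - Real.sin b| ≤ |a - b| := by
    have := Real.lipschitzWith_sin.dist_le_mul a b
    simpa [Real.dist_eq] using this
  linarith

theorem Nv_disj {s t : Finset (Fin 10)} (h : GoodCol κ δ) (hη0 : 0 < η) (hη : η < δ)
    (hs : Nv κ η s) (ht : Nv κ η t) (cs : s.card = 4) (ct : t.card = 4) : ¬ Disjoint s t := by
  intro hd
  obtain ⟨x, hx⟩ := Nv_point h hη hs
  obtain ⟨y, hy⟩ := Nv_point h hη ht
  obtain ⟨u, hu1, hux, huy, -⟩ := exists_unit_orth x y 0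
  obtain ⟨u', hu1', hux', huy', huu'⟩ := exists_unit_orth x y u
  -- values on the circle
  have hval : ∀ θ : ℝ, κ (circ u u' θ) ∈ (s ∪ t)ᶜ := by
    intro θ
    rw [Finset.mem_compl, Finset.mem_union, not_or]
    exact ⟨hx _ (circ_norm hu1 hu1' huu' θ) (circ_orth hux hux' θ),
      hy _ (circ_norm hu1 hu1' huu' θ) (circ_orth huy huy' θ)⟩
  have hcard : (s ∪ t)ᶜ.card = 2 := by
    rw [Finset.card_compl, Finset.card_union_of_disjoint hd, cs, ct, Fintype.card_fin]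
  have hne : κ u ≠ κ u' := by
    intro he
    have := h.sep u u' hu1 hu1' he
    rw [huu', abs_zero] at this
    exact absurd h.pos (not_lt.2 this)
  -- there is a small step where the colour changes
  obtain ⟨a, b, hab, hcol⟩ : ∃ a b : ℝ, |a - b| ≤ η / 2 ∧
      κ (circ u u' a) ≠ κ (circ u u' b) := by
    by_contra hcon
    push Not at hcon
    have := real_const (g := fun θ => κ (circ u u' θ)) (half_pos hη0) hcon 0 (Real.pi / 2)
    simp only [circ_zero, circ_half] at this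
    exact hne this
  set g := κ (circ u u' a) with hg
  set g' := κ (circ u u' b) with hg'
  have hgg : ({g, g'} : Finset (Fin 10)) = (s ∪ t)ᶜ := by
    apply Finset.eq_of_subset_of_card_le
    · intro i hi
      rcases Finset.mem_insert.1 hi with rfl | hi
      · exact hval a
      · rw [Finset.mem_singleton.1 hi]; exact hval b
    · rw [hcard, Finset.card_pair hcol]
  have hN : Nv κ η {g, g'} := by
    have hd2 : ‖circ u u' a - circ u u' b‖ ≤ η :=
      (circ_lip hu1 hu1' a b).trans (by linarith)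
    refine ⟨fun i => if i = g then circ u u' a else circ u u' b, ?_, ?_⟩
    · intro i hi
      by_cases hig : i = g
      · simp only [hig, if_true]
        exact ⟨circ_norm hu1 hu1' huu' a, hg.symm⟩
      · have : i = g' := by
          rcases Finset.mem_insert.1 hi with h' | h'
          · exact absurd h' hig
          · exact Finset.mem_singleton.1 h'
        simp only [hig, if_false]
        exact ⟨circ_norm hu1 hu1' huu' b, by rw [this]⟩
    · intro i hi j hj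
      by_cases hig : i = g <;> by_cases hjg : j = g
      · simp [hig, hjg, hη0.le]
      · simp only [hig, hjg, if_true, if_false]
        exact hd2
      · simp only [hig, hjg, if_true, if_false]
        rw [norm_sub_rev]; exact hd2
      · simp [hig, hjg, hη0.le]
  apply Nv_three h hη hs ht hN
  rw [hgg]
  exact Finset.union_compl _

/-- a function on the unit sphere of the quaternions which does not change along small steps is
constant -/
theorem sphere_const {α : Type*} {f : ℍ[ℝ] → α} {ε : ℝ} (hε : 0 < ε)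
    (h : ∀ x x' : ℍ[ℝ], ‖x‖ = 1 → ‖x'‖ = 1 → ‖x - x'‖ ≤ ε → f x = f x')
    (x y : ℍ[ℝ]) (hx : ‖x‖ = 1) (hy : ‖y‖ = 1) : f x = f y := by
  -- find `u` orthogonal to `x` with `y` on the circle
  obtain ⟨u, hu, ho, θ, hθ⟩ : ∃ u : ℍ[ℝ], ‖u‖ = 1 ∧ inner ℝ x u = 0 ∧ ∃ θ : ℝ,
      circ x u θ = y := by
    set c : ℝ := inner ℝ x y with hc
    have hc1 : |c| ≤ 1 := by
      have := abs_real_inner_le_norm x y
      rw [hx, hy, mul_one] at this
      exact this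
    obtain ⟨hc2, hc3⟩ := abs_le.1 hc1
    set v : ℍ[ℝ] := y - c • x with hv
    have hxv : inner ℝ x v = 0 := by
      rw [hv, inner_sub_right, inner_smul_right, real_inner_self_eq_norm_sq, hx]
      simp [hc]
    have hvn : ‖v‖ ^ 2 = 1 - c ^ 2 := by
      rw [hv, norm_sub_sq_real, norm_smul, inner_smul_right, real_inner_comm, ← hc, hx, hy]
      simp only [Real.norm_eq_abs, mul_one, sq_abs]
      ring
    by_cases hv0 : v = 0
    · obtain ⟨u, hu, hux, -, -⟩ := exists_unit_orth x 0 0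
      refine ⟨u, hu, hux, Real.arccos c, ?_⟩
      have hcc : 1 - c ^ 2 = 0 := by rw [← hvn, hv0]; simp
      rw [circ, Real.cos_arccos hc2 hc3, Real.sin_arccos, hcc, Real.sqrt_zero, zero_smul, add_zero]
      exact (sub_eq_zero.1 hv0).symm
    · have hn : ‖v‖ ≠ 0 := norm_ne_zero_iff.2 hv0
      refine ⟨‖v‖⁻¹ • v, ?_, ?_, Real.arccos c, ?_⟩
      · rw [norm_smul, norm_inv, norm_norm, inv_mul_cancel₀ hn]
      · rw [inner_smul_right, hxv, mul_zero]
      · rw [circ, Real.cos_arccos hc2 hc3, Real.sin_arccos, ← hvn, Real.sqrt_sq (norm_nonneg _),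
          smul_smul, mul_inv_cancel₀ hn, one_smul, hv]
        abel
  have := real_const (g := fun θ => f (circ x u θ)) (half_pos hε) (fun a b hab =>
    h _ _ (circ_norm hx hu ho a) (circ_norm hx hu ho b)
      ((circ_lip hx hu a b).trans (by linarith))) 0 θ
  simp only [circ_zero, hθ] at this
  exact this

end Crest.Agent.R050
end

-- ▼ part R050/Par
section

/-!
# The parity lemma for rid 50 (S0069)
-/

namespace Crest.Agent.R050

section par
variable {C : Type*} [DecidableEq C]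

theorem cs1_map_s23 (l : List (Fr C)) : cs1 (l.map s23) = cs1 l := by
  simp only [cs1, List.map_map]
  rfl

theorem chi_map_s23 (K : Finset C) (l : List (Fr C)) : chi K (l.map s23) = chi K l := by
  simp only [chi, cs1_map_s23, List.length_map]

theorem ev_chi_s23 (K : Finset C) (c : Ch (Fr C)) : ev (chi K) (c + mp s23 c) = 0 := by
  rw [map_add, ev_mp]
  simp only [chi_map_s23]
  exact two_self _

theorem cs1_three (a b c : Fr C) : cs1 [a, b, c] = {a.1, b.1, c.1} := by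
  simp [cs1]

theorem cs1_two (a b : Fr C) : cs1 [a, b] = {a.1, b.1} := by
  simp [cs1]

theorem cs1_four (a b c d : Fr C) : cs1 [a, b, c, d] = {a.1, b.1, c.1, d.1} := by
  simp [cs1]

theorem chi_two {e : Finset C} (he : e.card = 2) (a b : Fr C) :
    chi e [a, b] = if ({a.1, b.1} : Finset C) = e then 1 else 0 := by
  simp [chi, cs1_two, he]

theorem chi_three {K : Finset C} (hK : K.card = 3) (a b c : Fr C) :
    chi K [a, b, c] = if ({a.1, b.1, c.1} : Finset C) = K then 1 else 0 := by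
  simp [chi, cs1_three, hK]

omit [DecidableEq C] in
theorem cob_three (ψ : List (Fr C) → ZMod 2) (a b c : Fr C) :
    cob ψ [a, b, c] = ψ [b, c] + ψ [a, c] + ψ [a, b] := by
  simp [cob, bd_cons, add_assoc]

omit [DecidableEq C] in
theorem cob_four (ψ : List (Fr C) → ZMod 2) (a b c d : Fr C) :
    cob ψ [a, b, c, d] = ψ [b, c, d] + ψ [a, c, d] + ψ [a, b, d] + ψ [a, b, c] := by
  simp [cob, bd_cons, add_assoc]

theorem card_three_iff (x y z : C) :
    ({x, y, z} : Finset C).card = 3 ↔ x ≠ y ∧ x ≠ z ∧ y ≠ z := by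
  constructor
  · intro h
    refine ⟨?_, ?_, ?_⟩
    · rintro rfl
      have : ({x, x, z} : Finset C).card ≤ 2 := by
        simpa using Finset.card_le_two (a := x) (b := z)
      omega
    · rintro rfl
      have h3 : ({x, y, x} : Finset C) = {x, y} := by ext t; simp; tauto
      have : ({x, y, x} : Finset C).card ≤ 2 := by
        rw [h3]; exact Finset.card_le_two
      omega
    · rintro rfl
      have : ({x, y, y} : Finset C).card ≤ 2 := by
        simpa using Finset.card_le_two (a := x) (b := y)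
      omega
  · rintro ⟨h1, h2, h3⟩
    exact Finset.card_eq_three.2 ⟨x, y, z, h1, h2, h3, rfl⟩

theorem card_two_iff (x y : C) : ({x, y} : Finset C).card = 2 ↔ x ≠ y := by
  constructor
  · intro h
    rintro rfl
    simp at h
  · intro h
    exact Finset.card_pair h

omit [DecidableEq C] in
theorem eq_iff_of_subset {s t : Finset C} (h : s ⊆ t) : s = t ↔ s.card = t.card := by
  constructor
  · rintro rfl; rfl
  · intro h2
    exact Finset.eq_of_subset_of_card_le h h2.ge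

theorem sum_ins_out {e s : Finset C} (he : e.card = 2) (x y z : C) (hx : x ∉ e) (hxs : x ∈ s) :
    (∑ g ∈ s, if ({x, y, z} : Finset C) = insert g e then (1 : ZMod 2) else 0)
      = if ({y, z} : Finset C) = e then 1 else 0 := by
  rw [Finset.sum_eq_single x]
  · by_cases h : ({y, z} : Finset C) = e
    · rw [if_pos h, if_pos (by rw [← h])]
    · rw [if_neg h, if_neg]
      intro h2
      apply h
      have h3 : x ∉ ({y, z} : Finset C) := by
        intro h4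
        have h5 : ({x, y, z} : Finset C) = {y, z} := Finset.insert_eq_of_mem h4
        have h6 := congrArg Finset.card h2
        rw [h5, Finset.card_insert_of_notMem hx, he] at h6
        have := Finset.card_le_two (a := y) (b := z)
        omega
      have h4 : ({x, y, z} : Finset C).erase x = (insert x e).erase x := by rw [h2]
      rw [Finset.erase_insert hx] at h4
      rw [← h4]
      rw [show ({x, y, z} : Finset C) = insert x {y, z} from rfl, Finset.erase_insert h3]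
  · intro g hg hgx
    rw [if_neg]
    intro h
    have : x ∈ insert g e := by rw [← h]; simp
    rcases Finset.mem_insert.1 this with h1 | h1
    · exact hgx h1.symm
    · exact hx h1
  · intro h
    exact absurd hxs h

theorem par_aux {e U : Finset C} (he : e.card = 2) (x y z : C) (hxU : x ∈ U) (hyU : y ∈ U)
    (hzU : z ∈ U) :
    (if ({y, z} : Finset C) = e then (1 : ZMod 2) else 0)
      + (if ({x, z} : Finset C) = e then 1 else 0) + (if ({x, y} : Finset C) = e then 1 else 0)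
      = ∑ g ∈ U \ e, if ({x, y, z} : Finset C) = insert g e then (1 : ZMod 2) else 0 := by
  by_cases hx : x ∈ e
  · by_cases hy : y ∈ e
    · by_cases hz : z ∈ e
      · rw [Finset.sum_eq_zero]
        · have h1 : ({y, z} : Finset C) = e ↔ y ≠ z := by
            rw [eq_iff_of_subset (by
              intro t ht
              rcases Finset.mem_insert.1 ht with rfl | ht
              · exact hy
              · rw [Finset.mem_singleton.1 ht]; exact hz), he, card_two_iff]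
          have h2 : ({x, z} : Finset C) = e ↔ x ≠ z := by
            rw [eq_iff_of_subset (by
              intro t ht
              rcases Finset.mem_insert.1 ht with rfl | ht
              · exact hx
              · rw [Finset.mem_singleton.1 ht]; exact hz), he, card_two_iff]
          have h3 : ({x, y} : Finset C) = e ↔ x ≠ y := by
            rw [eq_iff_of_subset (by
              intro t ht
              rcases Finset.mem_insert.1 ht with rfl | ht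
              · exact hx
              · rw [Finset.mem_singleton.1 ht]; exact hy), he, card_two_iff]
          have h4 : ¬ (x ≠ y ∧ x ≠ z ∧ y ≠ z) := by
            rw [← card_three_iff]
            intro h
            have : ({x, y, z} : Finset C) ⊆ e := by
              intro t ht
              simp only [Finset.mem_insert, Finset.mem_singleton] at ht
              rcases ht with rfl | rfl | rfl
              · exact hx
              · exact hy
              · exact hz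
            have := Finset.card_le_card this
            omega
          simp only [h1, h2, h3]
          by_cases e1 : x = y
          · subst e1
            by_cases e2 : x = z
            · subst e2; simp
            · simp [e2]; exact two_self (M := ZMod 2) 1
          · by_cases e2 : x = z
            · subst e2
              have : y ≠ x := fun h => e1 h.symm
              simp [e1, this]; exact two_self (M := ZMod 2) 1
            · have e3 : y = z := by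
                by_contra h
                exact h4 ⟨e1, e2, h⟩
              subst e3
              simp [e1]; exact two_self (M := ZMod 2) 1
        · intro g hg
          rw [if_neg]
          intro h
          have : g ∈ ({x, y, z} : Finset C) := by rw [h]; simp
          simp only [Finset.mem_insert, Finset.mem_singleton] at this
          have hg' := (Finset.mem_sdiff.1 hg).2
          rcases this with rfl | rfl | rfl
          · exact hg' hx
          · exact hg' hy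
          · exact hg' hz
      · have h0 : ({x, y, z} : Finset C) = {z, x, y} := by ext t; simp; tauto
        rw [h0, sum_ins_out he z x y hz (Finset.mem_sdiff.2 ⟨hzU, hz⟩)]
        have h1 : ({y, z} : Finset C) ≠ e := by rintro rfl; simp at hz
        have h2 : ({x, z} : Finset C) ≠ e := by rintro rfl; simp at hz
        simp [h1, h2]
    · have h0 : ({x, y, z} : Finset C) = {y, x, z} := by ext t; simp; tauto
      rw [h0, sum_ins_out he y x z hy (Finset.mem_sdiff.2 ⟨hyU, hy⟩)]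
      have h1 : ({y, z} : Finset C) ≠ e := by rintro rfl; simp at hy
      have h2 : ({x, y} : Finset C) ≠ e := by rintro rfl; simp at hy
      simp [h1, h2]
  · rw [sum_ins_out he x y z hx (Finset.mem_sdiff.2 ⟨hxU, hx⟩)]
    have h1 : ({x, z} : Finset C) ≠ e := by rintro rfl; simp at hx
    have h2 : ({x, y} : Finset C) ≠ e := by rintro rfl; simp at hx
    simp [h1, h2]

theorem cob_chi_par {e U : Finset C} (he : e.card = 2) (a b c : Fr C) (ha : a.1 ∈ U)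
    (hb : b.1 ∈ U) (hc : c.1 ∈ U) :
    ∑ g ∈ U \ e, chi (insert g e) [a, b, c] = cob (chi e) [a, b, c] := by
  rw [cob_three, chi_two he, chi_two he, chi_two he, par_aux he _ _ _ ha hb hc]
  refine Finset.sum_congr rfl ?_
  intro g hg
  rw [chi_three]
  rw [Finset.card_insert_of_notMem (Finset.mem_sdiff.1 hg).2, he]

/-- the parity identity -/
theorem par_lemma {C : Type*} [DecidableEq C] (D1 D2 : Ch (Fr C)) (h2 : bd D2 = D1 + mp s23 D1)
    (U : Finset C) (a2 : Sup (fun l => l.length = 3 ∧ cs1 l ⊆ U) D2) (e : Finset C)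
    (he : e.card = 2) (heU : e ⊆ U) : ∑ g ∈ U \ e, ev (chi (insert g e)) D2 = 0 := by
  have h1 : ev (chi e) (bd D2) = 0 := by rw [h2, ev_chi_s23]
  rw [ev_bd] at h1
  rw [← h1]
  have h3 : ∀ s : Finset C, ∑ g ∈ s, ev (chi (insert g e)) D2
      = ev (fun l => ∑ g ∈ s, chi (insert g e) l) D2 := by
    intro s
    have : (∑ g ∈ s, (ev (chi (insert g e)) : Ch (Fr C) →ₗ[ZMod 2] ZMod 2))
        = ev (fun l => ∑ g ∈ s, chi (insert g e) l) := by
      apply lin_ext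
      intro l
      simp [LinearMap.sum_apply]
    rw [← this, LinearMap.sum_apply]
  rw [h3]
  refine ev_congr a2 ?_
  rintro l ⟨hl, hlU⟩
  obtain ⟨a, b, c, rfl⟩ : ∃ a b c, l = [a, b, c] := List.length_eq_three.1 hl
  rw [cs1_three] at hlU
  exact cob_chi_par he a b c (hlU (by simp)) (hlU (by simp)) (hlU (by simp))

end par

end Crest.Agent.R050
end

-- ▼ part R050/Sweep
section

/-!
# The sweep lemma for rid 50 (S0069)
-/

namespace Crest.Agent.R050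

section sweep
variable {C : Type*} [DecidableEq C]

theorem not_four_aux {K : Finset C} (hK : K.card = 3) {x y z w : C} (hx : x ∈ K) (hy : y ∈ K)
    (hz : z ∈ K) (hw : w ∈ K) :
    (if ({y, z, w} : Finset C) = K then (1 : ZMod 2) else 0)
      + (if ({x, z, w} : Finset C) = K then 1 else 0)
      + (if ({x, y, w} : Finset C) = K then 1 else 0)
      + (if ({x, y, z} : Finset C) = K then 1 else 0) = 0 := by
  have key : ∀ p q r : C, p ∈ K → q ∈ K → r ∈ K →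
      (({p, q, r} : Finset C) = K ↔ p ≠ q ∧ p ≠ r ∧ q ≠ r) := by
    intro p q r hp hq hr
    rw [eq_iff_of_subset (by
      intro t ht
      simp only [Finset.mem_insert, Finset.mem_singleton] at ht
      rcases ht with rfl | rfl | rfl
      · exact hp
      · exact hq
      · exact hr), hK, card_three_iff]
  simp only [key _ _ _ hy hz hw, key _ _ _ hx hz hw, key _ _ _ hx hy hw, key _ _ _ hx hy hz]
  have h4 : x = y ∨ x = z ∨ x = w ∨ y = z ∨ y = w ∨ z = w := by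
    by_contra h
    push Not at h
    obtain ⟨h1, h2, h3, h4, h5, h6⟩ := h
    have hc : ({x, y, z, w} : Finset C).card = 4 := by
      rw [Finset.card_insert_of_notMem, (card_three_iff y z w).2 ⟨h4, h5, h6⟩]
      simp [h1, h2, h3]
    have : ({x, y, z, w} : Finset C) ⊆ K := by
      intro t ht
      simp only [Finset.mem_insert, Finset.mem_singleton] at ht
      rcases ht with rfl | rfl | rfl | rfl
      · exact hx
      · exact hy
      · exact hz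
      · exact hw
    have := Finset.card_le_card this
    omega
  have t2 : (1 : ZMod 2) + 1 = 0 := rfl
  rcases h4 with rfl | rfl | rfl | rfl | rfl | rfl
  · by_cases h : x ≠ z ∧ x ≠ w ∧ z ≠ w
    · simp [h, t2]
    · simp [h]
  · by_cases h : x ≠ y ∧ x ≠ w ∧ y ≠ w
    · obtain ⟨h1, h2, h3⟩ := h
      simp [h1, h2, h3, h1.symm, t2]
    · have h' : ¬ (y ≠ x ∧ y ≠ w ∧ x ≠ w) := by
        rintro ⟨a, b, c⟩; exact h ⟨a.symm, c, b⟩
      simp only [h, h', if_false]; simp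
  · by_cases h : x ≠ y ∧ x ≠ z ∧ y ≠ z
    · obtain ⟨h1, h2, h3⟩ := h
      simp [h1, h2, h3, h1.symm, h2.symm, t2]
    · have h' : ¬ (y ≠ z ∧ y ≠ x ∧ z ≠ x) := by
        rintro ⟨a, b, c⟩; exact h ⟨b.symm, c.symm, a⟩
      simp only [h, h', if_false]; simp
  · by_cases h : x ≠ y ∧ x ≠ w ∧ y ≠ w
    · obtain ⟨h1, h2, h3⟩ := h
      simp [h1, h2, h3, t2]
    · simp only [h, if_false]; simp
  · by_cases h : x ≠ y ∧ x ≠ z ∧ y ≠ z
    · obtain ⟨h1, h2, h3⟩ := h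
      simp [h1, h2, h3, h3.symm, t2]
    · have h' : ¬ (x ≠ z ∧ x ≠ y ∧ z ≠ y) := by
        rintro ⟨a, b, c⟩; exact h ⟨b, a, c.symm⟩
      simp only [h, h', if_false]; simp
  · by_cases h : x ≠ y ∧ x ≠ z ∧ y ≠ z
    · obtain ⟨h1, h2, h3⟩ := h
      simp [h1, h2, h3, t2]
    · simp only [h, if_false]; simp

theorem cob_chi_ext {N : Finset C → Prop} {K : Finset C}
    (hK : K.card = 3) (hext : ∀ d, d ∉ K → ¬ N (insert d K)) (a b c d : Fr C)
    (hNl : N (cs1 [a, b, c, d])) : cob (chi K) [a, b, c, d] = 0 := by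
  rw [cob_four, chi_three hK, chi_three hK, chi_three hK, chi_three hK]
  rw [cs1_four] at hNl
  by_cases hx : a.1 ∈ K
  · by_cases hy : b.1 ∈ K
    · by_cases hz : c.1 ∈ K
      · by_cases hw : d.1 ∈ K
        · exact not_four_aux hK hx hy hz hw
        · have h1 : ({b.1, c.1, d.1} : Finset C) ≠ K := by rintro rfl; simp at hw
          have h2 : ({a.1, c.1, d.1} : Finset C) ≠ K := by rintro rfl; simp at hw
          have h3 : ({a.1, b.1, d.1} : Finset C) ≠ K := by rintro rfl; simp at hw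
          have h4 : ({a.1, b.1, c.1} : Finset C) ≠ K := by
            rintro rfl
            refine hext d.1 hw ?_
            convert hNl using 1
            ext t; simp; tauto
          simp [h1, h2, h3, h4]
      · have h1 : ({b.1, c.1, d.1} : Finset C) ≠ K := by rintro rfl; simp at hz
        have h2 : ({a.1, c.1, d.1} : Finset C) ≠ K := by rintro rfl; simp at hz
        have h3 : ({a.1, b.1, c.1} : Finset C) ≠ K := by rintro rfl; simp at hz
        have h4 : ({a.1, b.1, d.1} : Finset C) ≠ K := by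
          rintro rfl
          refine hext c.1 hz ?_
          convert hNl using 1
          ext t; simp; tauto
        simp [h1, h2, h3, h4]
    · have h1 : ({b.1, c.1, d.1} : Finset C) ≠ K := by rintro rfl; simp at hy
      have h2 : ({a.1, b.1, d.1} : Finset C) ≠ K := by rintro rfl; simp at hy
      have h3 : ({a.1, b.1, c.1} : Finset C) ≠ K := by rintro rfl; simp at hy
      have h4 : ({a.1, c.1, d.1} : Finset C) ≠ K := by
        rintro rfl
        refine hext b.1 hy ?_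
        convert hNl using 1
        ext t; simp; tauto
      simp [h1, h2, h3, h4]
  · have h1 : ({a.1, c.1, d.1} : Finset C) ≠ K := by rintro rfl; simp at hx
    have h2 : ({a.1, b.1, d.1} : Finset C) ≠ K := by rintro rfl; simp at hx
    have h3 : ({a.1, b.1, c.1} : Finset C) ≠ K := by rintro rfl; simp at hx
    have h4 : ({b.1, c.1, d.1} : Finset C) ≠ K := by
      rintro rfl
      refine hext a.1 hx ?_
      convert hNl using 1
    simp [h1, h2, h3, h4]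

/-- local constancy -/
theorem sweep_lemma {C : Type*} [DecidableEq C] (N : Finset C → Prop) (K : Finset C)
    (hK : K.card = 3) (hN : ∀ i, i ∉ K → ¬ N (insert i K)) (D D' H H' : Ch (Fr C))
    (h : D + D' = bd H + (H' + mp s23 H'))
    (aH : Sup (fun l => l.length = 4 ∧ N (cs1 l)) H) : ev (chi K) D = ev (chi K) D' := by
  have h1 : ev (chi K) (bd H) = 0 := by
    rw [ev_bd]
    refine ev_eq_zero aH ?_
    rintro l ⟨hl, hNl⟩
    match l, hl, hNl with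
    | [a, b, c, d], _, hNl => exact cob_chi_ext hK hN a b c d hNl
  have h2 := congrArg (ev (chi K)) h
  rw [map_add, map_add, h1, ev_chi_s23, zero_add] at h2
  have h3 : ev (chi K) D = -(ev (chi K) D') := by
    rw [eq_neg_iff_add_eq_zero]; exact h2
  rw [h3, neg_self]

end sweep

end Crest.Agent.R050
end

-- ▼ part R050/Veronese
section

/-!
# R050 / Veronese: the statement of S0069 follows from the non-existence of good colourings
-/

set_option autoImplicit false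

namespace Crest.Agent.R050

open scoped Quaternion

/-- The nine entries of the rotation matrix of the quaternion `x`. -/
noncomputable def ver (x : ℍ[ℝ]) : EuclideanSpace ℝ (Fin 9) :=
  WithLp.toLp 2 ![x.re ^ 2 + x.imI ^ 2 - x.imJ ^ 2 - x.imK ^ 2,
    2 * (x.imI * x.imJ - x.re * x.imK), 2 * (x.imI * x.imK + x.re * x.imJ),
    2 * (x.imI * x.imJ + x.re * x.imK), x.re ^ 2 - x.imI ^ 2 + x.imJ ^ 2 - x.imK ^ 2,
    2 * (x.imJ * x.imK - x.re * x.imI),
    2 * (x.imI * x.imK - x.re * x.imJ), 2 * (x.imJ * x.imK + x.re * x.imI),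
    x.re ^ 2 - x.imI ^ 2 - x.imJ ^ 2 + x.imK ^ 2]

theorem ver_neg (x : ℍ[ℝ]) : ver (-x) = ver x := by
  unfold ver
  simp

theorem inner_quat (x y : ℍ[ℝ]) :
    inner ℝ x y = x.re * y.re + x.imI * y.imI + x.imJ * y.imJ + x.imK * y.imK := by
  rw [Quaternion.inner_def]
  simp

theorem normSq_quat (x : ℍ[ℝ]) :
    ‖x‖ ^ 2 = x.re ^ 2 + x.imI ^ 2 + x.imJ ^ 2 + x.imK ^ 2 := by
  rw [sq, ← Quaternion.normSq_eq_norm_mul_self, Quaternion.normSq_def']

theorem dist_ver_sq {x y : ℍ[ℝ]} (hx : ‖x‖ = 1) (hy : ‖y‖ = 1) :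
    dist (ver x) (ver y) ^ 2 = 8 * (1 - (inner ℝ x y) ^ 2) := by
  have h1 : x.re ^ 2 + x.imI ^ 2 + x.imJ ^ 2 + x.imK ^ 2 = 1 := by
    rw [← normSq_quat, hx]; norm_num
  have h2 : y.re ^ 2 + y.imI ^ 2 + y.imJ ^ 2 + y.imK ^ 2 = 1 := by
    rw [← normSq_quat, hy]; norm_num
  have key : dist (ver x) (ver y) ^ 2 =
      3 * (x.re ^ 2 + x.imI ^ 2 + x.imJ ^ 2 + x.imK ^ 2) ^ 2 +
      3 * (y.re ^ 2 + y.imI ^ 2 + y.imJ ^ 2 + y.imK ^ 2) ^ 2 +
      2 * (x.re ^ 2 + x.imI ^ 2 + x.imJ ^ 2 + x.imK ^ 2) *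
        (y.re ^ 2 + y.imI ^ 2 + y.imJ ^ 2 + y.imK ^ 2) - 8 * (inner ℝ x y) ^ 2 := by
    rw [EuclideanSpace.dist_eq, Real.sq_sqrt (Finset.sum_nonneg fun _ _ => sq_nonneg _),
      inner_quat]
    simp only [Real.dist_eq, sq_abs]
    simp only [ver, Fin.sum_univ_succ, Fin.sum_univ_zero, Matrix.cons_val_zero,
      Matrix.cons_val_succ]
    ring
  rw [key, h1, h2]
  ring

theorem reduction (h : ∀ κ δ, ¬ GoodCol κ δ) :
    ∃ S : Set (EuclideanSpace ℝ (Fin 9)), Bornology.IsBounded S ∧ S.Nontrivial ∧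
      ∀ c : EuclideanSpace ℝ (Fin 9) → Fin 10, ∃ i : Fin 10,
        Metric.diam S ≤ Metric.diam (S ∩ c ⁻¹' {i}) := by
  set S : Set (EuclideanSpace ℝ (Fin 9)) := ver '' {x : ℍ[ℝ] | ‖x‖ = 1} with hS
  have hdist : ∀ p ∈ S, ∀ q ∈ S, dist p q ≤ Real.sqrt 8 := by
    rintro _ ⟨x, hx, rfl⟩ _ ⟨y, hy, rfl⟩
    apply Real.le_sqrt_of_sq_le
    rw [dist_ver_sq hx hy]
    nlinarith [sq_nonneg (inner ℝ x y : ℝ)]
  have hbd : Bornology.IsBounded S :=
    Metric.isBounded_iff.2 ⟨Real.sqrt 8, fun p hp q hq => hdist p hp q hq⟩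
  have n1 : ‖(1 : ℍ[ℝ])‖ = 1 := norm_one
  obtain ⟨I, r0, r1, r2, r3⟩ : ∃ I : ℍ[ℝ], I.re = 0 ∧ I.imI = 1 ∧ I.imJ = 0 ∧ I.imK = 0 :=
    ⟨⟨0, 1, 0, 0⟩, rfl, rfl, rfl, rfl⟩
  have nI : ‖I‖ = 1 := by
    have := normSq_quat I
    rw [r0, r1, r2, r3] at this
    nlinarith [norm_nonneg I]
  refine ⟨S, hbd, ?_, ?_⟩
  · refine ⟨ver 1, ⟨1, n1, rfl⟩, ver I, ⟨_, nI, rfl⟩, ?_⟩
    intro heq
    have h1 := dist_ver_sq n1 nI
    rw [heq, dist_self, inner_quat, r0, r1, r2, r3] at h1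
    simp at h1
  · intro c
    by_contra hcon
    push Not at hcon
    -- the largest class diameter
    obtain ⟨i0, -, hi0⟩ := Finset.exists_max_image (Finset.univ : Finset (Fin 10))
      (fun i => Metric.diam (S ∩ c ⁻¹' {i})) ⟨0, Finset.mem_univ _⟩
    set D := Metric.diam (S ∩ c ⁻¹' {i0}) with hD
    have hD0 : 0 ≤ D := Metric.diam_nonneg
    have hSd : Metric.diam S ≤ Real.sqrt 8 :=
      Metric.diam_le_of_forall_dist_le (Real.sqrt_nonneg _) hdist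
    have hDlt : D < Real.sqrt 8 := (hcon i0).trans_le hSd
    have hDsq : D ^ 2 < 8 := by
      have h8 : Real.sqrt 8 ^ 2 = 8 := Real.sq_sqrt (by norm_num)
      nlinarith [Real.sqrt_nonneg 8]
    have hpos : 0 < 1 - D ^ 2 / 8 := by linarith
    refine h (fun v => c (ver (‖v‖⁻¹ • v))) (Real.sqrt (1 - D ^ 2 / 8))
      ⟨Real.sqrt_pos.2 hpos, ?_, ?_⟩
    · intro t v ht
      have h1 : ‖t • v‖⁻¹ • (t • v) = (‖t‖⁻¹ * t) • (‖v‖⁻¹ • v) := by
        rw [norm_smul, mul_inv, smul_smul, smul_smul]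
        congr 1
        ring
      rw [h1]
      rcases lt_or_gt_of_ne ht with ht | ht
      · have : ‖t‖⁻¹ * t = -1 := by
          rw [Real.norm_eq_abs, abs_of_neg ht, inv_neg, neg_mul, inv_mul_cancel₀ ht.ne]
        rw [this, neg_smul, one_smul, ver_neg]
      · have : ‖t‖⁻¹ * t = 1 := by
          rw [Real.norm_eq_abs, abs_of_pos ht, inv_mul_cancel₀ ht.ne']
        rw [this, one_smul]
    · intro u w hu hw huw
      beta_reduce at huw
      rw [hu, hw, inv_one, one_smul, one_smul] at huw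
      have hu' : ver u ∈ S ∩ c ⁻¹' {c (ver u)} := ⟨⟨u, hu, rfl⟩, rfl⟩
      have hw' : ver w ∈ S ∩ c ⁻¹' {c (ver u)} := ⟨⟨w, hw, rfl⟩, huw.symm⟩
      have h1 : dist (ver u) (ver w) ≤ D :=
        (Metric.dist_le_diam_of_mem (hbd.subset Set.inter_subset_left) hu' hw').trans
          (hi0 _ (Finset.mem_univ _))
      have h2 : dist (ver u) (ver w) ^ 2 ≤ D ^ 2 :=
        pow_le_pow_left₀ dist_nonneg h1 2
      rw [dist_ver_sq hu hw] at h2
      rw [← Real.sqrt_sq_eq_abs]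
      apply Real.sqrt_le_sqrt
      linarith

end Crest.Agent.R050
end

-- ▼ part R050/Main
section

/-!
# Main argument for rid 50 (S0069), modulo the split lemma and the finite core
-/

namespace Crest.Agent.R050

open scoped Quaternion

/-- the statement of `split10` -/
def SplitStmt : Prop := ∀ (T K : Finset (Fin 10)), T.card = 4 → K.card = 3 → K ⊆ Tᶜ →
  ∀ (D0 D1 D2 D3 : Ch (Fr (Fin 10))), bd D0 = sg [] → bd D1 = D0 + mp s12 D0 →
  bd D2 = D1 + mp s12 D1 → bd D3 = D2 + mp s12 D2 → bd D3 = D2 + mp s23 D2 →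
  D3 + mp s12 D3 = D3 + mp s23 D3 →
  Sup (fun l => l.length = 1 ∧ Dj l ∧ Sm l ∧ cs1 l ⊆ Tᶜ ∧ cs2 l ⊆ Tᶜ ∧ cs3 l ⊆ Tᶜ) D0 →
  Sup (fun l => l.length = 2 ∧ Dj l ∧ Sm l ∧ cs1 l ⊆ Tᶜ ∧ cs2 l ⊆ Tᶜ ∧ cs3 l ⊆ Tᶜ) D1 →
  Sup (fun l => l.length = 3 ∧ Dj l ∧ Sm l ∧ cs1 l ⊆ Tᶜ ∧ cs2 l ⊆ Tᶜ ∧ cs3 l ⊆ Tᶜ) D2 →
  Sup (fun l => l.length = 4 ∧ Dj l ∧ Sm l ∧ cs1 l ⊆ Tᶜ ∧ cs2 l ⊆ Tᶜ ∧ cs3 l ⊆ Tᶜ) D3 →
  ev (chi K) D2 + ev (chi (Tᶜ \ K)) D2 = 1

open Classical in
/-- the statement of `core` -/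
def CoreStmt : Prop := ∀ (N : Finset (Fin 10) → Prop),
    (∀ s t, N s → t ⊆ s → N t) →
    (∀ a b c, N a → N b → N c → a ∪ b ∪ c ≠ Finset.univ) →
    (∀ s t, N s → N t → s.card = 4 → t.card = 4 → ¬ Disjoint s t) →
    (∃ s, N s ∧ s.card = 4) →
    (∀ T K, N T → T.card = 4 → K.card = 3 → K ⊆ Tᶜ → N K ∨ N (Tᶜ \ K)) →
    (∀ T e, N T → T.card = 4 → e.card = 2 → e ⊆ Tᶜ →
      Even (Finset.card {c ∈ Tᶜ \ e | N (insert c e)})) →
    (∀ T K, N T → T.card = 4 → K.card = 3 → K ⊆ Tᶜ → N K →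
      ∃ i, i ∉ K ∧ N (insert i K)) → False

/-- The chains `D x k` of frames attached to unit quaternions `x`. -/
structure ChainData (κ : ℍ[ℝ] → Fin 10) (η : ℝ) where
  D : ℍ[ℝ] → ℕ → Ch (Fr (Fin 10))
  b0 : ∀ x, ‖x‖ = 1 → bd (D x 0) = sg []
  bs : ∀ x, ‖x‖ = 1 → ∀ k, k < 3 → bd (D x (k + 1)) = D x k + mp s12 (D x k)
  bs' : ∀ x, ‖x‖ = 1 → ∀ k, k < 3 → bd (D x (k + 1)) = D x k + mp s23 (D x k)
  sym : ∀ x, ‖x‖ = 1 → D x 3 + mp s12 (D x 3) = D x 3 + mp s23 (D x 3)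
  adm : ∀ x, ‖x‖ = 1 → ∀ k, k ≤ 3 →
    Sup (fun l => l.length = k + 1 ∧ Dj l ∧ InN (Nv κ η) l) (D x k)
  avoid : ∀ (T : Finset (Fin 10)) (w : Fin 10 → ℍ[ℝ]),
    (∀ i ∈ T, ‖w i‖ = 1 ∧ κ (w i) = i) → (∀ i ∈ T, ∀ j ∈ T, ‖w i - w j‖ ≤ η) →
    ∀ t ∈ T, ∀ k, k ≤ 3 → Sup (fun l => cs1 l ⊆ Tᶜ ∧ cs2 l ⊆ Tᶜ ∧ cs3 l ⊆ Tᶜ) (D (w t) k)
  ρ : ℝ
  ρpos : 0 < ρ
  hom : ∀ x x', ‖x‖ = 1 → ‖x'‖ = 1 → ‖x - x'‖ ≤ ρ →
    ∃ H H', D x 2 + D x' 2 = bd H + (H' + mp s23 H') ∧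
      Sup (fun l => l.length = 4 ∧ Nv κ η (cs1 l)) H

theorem zmod2_cases (a : ZMod 2) : a = 0 ∨ a = 1 := by
  revert a; decide

theorem chi_ne_zero {C : Type*} [DecidableEq C] {K : Finset C} {l : List (Fr C)}
    (h : chi K l ≠ 0) : cs1 l = K := by
  unfold chi at h
  split_ifs at h with h1
  · exact h1.2
  · exact absurd rfl h

/-- final combination -/
theorem end_contra (hsplit : SplitStmt) (hcore : CoreStmt) {κ : ℍ[ℝ] → Fin 10} {δ η : ℝ} (h : GoodCol κ δ) (hη0 : 0 < η) (hη : η < δ)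
    (X : ChainData κ η) : False := by
  classical
  set N := Nv κ η with hN
  have three : ∀ a b c, N a → N b → N c → a ∪ b ∪ c ≠ Finset.univ :=
    fun a b c ha hb hc => Nv_three h hη ha hb hc
  have disj : ∀ s t, N s → N t → s.card = 4 → t.card = 4 → ¬ Disjoint s t :=
    fun s t hs ht cs ct => Nv_disj h hη0 hη hs ht cs ct
  have down : ∀ s t, N s → t ⊆ s → N t := fun s t hs hst => Nv_down hs hst
  -- choose base points
  have base : ∀ T, N T → T.card = 4 → ∃ x, ‖x‖ = 1 ∧ ∀ k, k ≤ 3 →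
      Sup (fun l => l.length = k + 1 ∧ Dj l ∧ Sm l ∧ cs1 l ⊆ Tᶜ ∧ cs2 l ⊆ Tᶜ ∧ cs3 l ⊆ Tᶜ)
        (X.D x k) := by
    intro T hT cT
    obtain ⟨w, hw1, hw2⟩ := hT
    have hTne : T.Nonempty := by rw [← Finset.card_pos, cT]; norm_num
    obtain ⟨t, ht⟩ := hTne
    refine ⟨w t, (hw1 t ht).1, fun k hk => ?_⟩
    intro l hl
    have ha := X.adm (w t) (hw1 t ht).1 k hk l hl
    have hb := X.avoid T w hw1 hw2 t ht k hk l hl
    have small : ∀ P : Finset (Fin 10), N P → P ⊆ Tᶜ → P.card ≤ 3 := by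
      intro P hP hPT
      by_contra hcon
      push Not at hcon
      obtain ⟨Q, hQP, hQc⟩ := Finset.exists_subset_card_eq (show 4 ≤ P.card by omega)
      refine disj T Q ⟨w, hw1, hw2⟩ (down P Q hP hQP) cT hQc ?_
      rw [Finset.disjoint_left]
      intro a haT haQ
      exact (Finset.mem_compl.1 (hPT (hQP haQ))) haT
    exact ⟨ha.1, ha.2.1, ⟨small _ ha.2.2.n1 hb.1, small _ ha.2.2.n2 hb.2.1,
      small _ ha.2.2.n3 hb.2.2⟩, hb⟩
  -- Z = 1 implies N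
  have Z_imp : ∀ x, ‖x‖ = 1 → ∀ K : Finset (Fin 10), ev (chi K) (X.D x 2) ≠ 0 → N K := by
    intro x hx K hK
    obtain ⟨l, hl, hl2⟩ := exists_of_ev_ne_zero (X.adm x hx 2 (by norm_num)) hK
    have := chi_ne_zero hl2
    rw [← this]; exact hl.2.2.n1
  have spl : ∀ T K, N T → T.card = 4 → K.card = 3 → K ⊆ Tᶜ → ∀ x, ‖x‖ = 1 → (∀ k, k ≤ 3 →
      Sup (fun l => l.length = k + 1 ∧ Dj l ∧ Sm l ∧ cs1 l ⊆ Tᶜ ∧ cs2 l ⊆ Tᶜ ∧ cs3 l ⊆ Tᶜ)
        (X.D x k)) → ev (chi K) (X.D x 2) + ev (chi (Tᶜ \ K)) (X.D x 2) = 1 := by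
    intro T K hT cT cK hKT x hx hs
    exact hsplit T K cT cK hKT (X.D x 0) (X.D x 1) (X.D x 2) (X.D x 3) (X.b0 x hx)
      (X.bs x hx 0 (by norm_num)) (X.bs x hx 1 (by norm_num)) (X.bs x hx 2 (by norm_num))
      (X.bs' x hx 2 (by norm_num)) (X.sym x hx) (hs 0 (by norm_num)) (hs 1 (by norm_num))
      (hs 2 (by norm_num)) (hs 3 (by norm_num))
  have Z_iff : ∀ T K, N T → T.card = 4 → K.card = 3 → K ⊆ Tᶜ → ∀ x, ‖x‖ = 1 → (∀ k, k ≤ 3 →
      Sup (fun l => l.length = k + 1 ∧ Dj l ∧ Sm l ∧ cs1 l ⊆ Tᶜ ∧ cs2 l ⊆ Tᶜ ∧ cs3 l ⊆ Tᶜ)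
        (X.D x k)) → (ev (chi K) (X.D x 2) = if N K then 1 else 0) := by
    intro T K hT cT cK hKT x hx hs
    have h1 := spl T K hT cT cK hKT x hx hs
    by_cases hK : N K
    · rw [if_pos hK]
      rcases zmod2_cases (ev (chi K) (X.D x 2)) with h0 | h0
      · exfalso
        have h2 : ev (chi (Tᶜ \ K)) (X.D x 2) ≠ 0 := by
          rw [h0, zero_add] at h1; rw [h1]; exact one_ne_zero
        refine three T K (Tᶜ \ K) hT hK (Z_imp x hx _ h2) ?_
        ext a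
        simp only [Finset.mem_union, Finset.mem_sdiff, Finset.mem_compl, Finset.mem_univ, iff_true]
        tauto
      · exact h0
    · rw [if_neg hK]
      by_contra hcon
      exact hK (Z_imp x hx K hcon)
  refine hcore N down three disj ?_ ?_ ?_ ?_
  · obtain ⟨T, hT, hNT⟩ := exists_quad h hη0
    exact ⟨T, hNT, hT⟩
  · intro T K hT cT cK hKT
    obtain ⟨x, hx, hs⟩ := base T hT cT
    have h1 := spl T K hT cT cK hKT x hx hs
    by_contra hcon
    push Not at hcon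
    have e1 : ev (chi K) (X.D x 2) = 0 := by
      by_contra hc; exact hcon.1 (Z_imp x hx K hc)
    have e2 : ev (chi (Tᶜ \ K)) (X.D x 2) = 0 := by
      by_contra hc; exact hcon.2 (Z_imp x hx _ hc)
    rw [e1, e2] at h1
    simp at h1
  · intro T e hT cT ce heT
    obtain ⟨x, hx, hs⟩ := base T hT cT
    have hsum := par_lemma (X.D x 1) (X.D x 2) (X.bs' x hx 1 (by norm_num)) Tᶜ
      ((hs 2 (by norm_num)).mono fun l hl => ⟨hl.1, hl.2.2.2.1⟩) e ce heT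
    have hsum2 : ∑ g ∈ Tᶜ \ e, (if N (insert g e) then (1 : ZMod 2) else 0)
        = ∑ g ∈ Tᶜ \ e, ev (chi (insert g e)) (X.D x 2) := by
      refine Finset.sum_congr rfl fun g hg => ?_
      rw [Finset.mem_sdiff] at hg
      refine (Z_iff T (insert g e) hT cT ?_ ?_ x hx hs).symm
      · rw [Finset.card_insert_of_notMem hg.2, ce]
      · intro a ha
        rcases Finset.mem_insert.1 ha with rfl | ha
        · exact hg.1
        · exact heT ha
    rw [hsum] at hsum2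
    rw [Finset.sum_boole] at hsum2
    rw [← ZMod.natCast_eq_zero_iff_even]
    convert hsum2
  · intro T K hT cT cK hKT hNK
    by_contra hcon
    push Not at hcon
    obtain ⟨x, hx, hs⟩ := base T hT cT
    have h1 := Z_iff T K hT cT cK hKT x hx hs
    rw [if_pos hNK] at h1
    obtain ⟨w, hw1, hw2⟩ := hNK
    have hKne : K.Nonempty := by rw [← Finset.card_pos, cK]; norm_num
    obtain ⟨t, ht⟩ := hKne
    have hloc : ∀ y y', ‖y‖ = 1 → ‖y'‖ = 1 → ‖y - y'‖ ≤ X.ρ →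
        ev (chi K) (X.D y 2) = ev (chi K) (X.D y' 2) := by
      intro y y' hy hy' hyy
      obtain ⟨H, H', hH, aH⟩ := X.hom y y' hy hy' hyy
      exact sweep_lemma N K cK hcon _ _ H H' hH aH
    have hc := sphere_const (f := fun y => ev (chi K) (X.D y 2)) X.ρpos hloc x (w t) hx
      (hw1 t ht).1
    have h0 : ev (chi K) (X.D (w t) 2) = 0 := by
      refine ev_eq_zero (X.avoid K w hw1 hw2 t ht 2 (by norm_num)) ?_
      intro l hl
      by_contra hne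
      have := chi_ne_zero hne
      have hl1 := hl.1
      rw [this] at hl1
      exact (Finset.mem_compl.1 (hl1 ht)) ht
    simp only [h1, h0] at hc
    exact one_ne_zero hc

/-- geometric property of the simplices used: `n` vertices, norm at least `1/2`, mesh `ε` -/
def Fine (n : ℕ) (ε : ℝ) (l : List ℍ[ℝ]) : Prop :=
  l.length = n ∧ (∀ v ∈ l, 1 / 2 ≤ ‖v‖) ∧ ∀ v ∈ l, ∀ w ∈ l, ‖v - w‖ ≤ ε

/-- property of coarse simplices -/
def CoarseOK (n : ℕ) (l : List ℍ[ℝ]) : Prop :=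
  l.length = n ∧ (∀ v ∈ l, ‖v‖ = 1) ∧ ∀ v ∈ convexHull ℝ {w | w ∈ l}, 1 / 2 ≤ ‖v‖

theorem Sup_fine {n : ℕ} (hn : n ≤ 4) {c : Ch ℍ[ℝ]} (hc : Sup (CoarseOK n) c) (m : ℕ) (ε : ℝ)
    (hm : (3 / 4 : ℝ) ^ m * 2 ≤ ε) : Sup (Fine n ε) (SdI n m c) := by
  refine Sup.mono (Sup_SdI_chain n hn m (CoarseOK n) c 2 hc ?_) ?_
  · rintro l ⟨h1, h2, h3⟩
    refine ⟨h1, fun v hv w hw => ?_⟩
    rw [dist_eq_norm]
    calc ‖v - w‖ ≤ ‖v‖ + ‖w‖ := norm_sub_le _ _
      _ = 2 := by rw [h2 v hv, h2 w hw]; norm_num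
  · rintro l ⟨h1, ⟨l0, h2, h3⟩, h4⟩
    refine ⟨h1, fun v hv => h2.2.2 v (h3 v hv), fun v hv w hw => ?_⟩
    rw [← dist_eq_norm]
    exact le_trans (h4 v hv w hw) hm

/-- coarse chains together with their properties -/
structure CoarseData where
  c0 : Ch ℍ[ℝ]
  Ex : Ch ℍ[ℝ]
  Ey : Ch ℍ[ℝ]
  F1 : Ch ℍ[ℝ]
  F2 : Ch ℍ[ℝ]
  G : Ch ℍ[ℝ]
  rel : CoarseRel Xm Ym c0 Ex Ey F1 F2 G
  s0 : Sup (CoarseOK 1) c0
  sx : Sup (CoarseOK 2) Ex
  sy : Sup (CoarseOK 2) Ey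
  s1 : Sup (CoarseOK 3) F1
  s2 : Sup (CoarseOK 3) F2
  s3 : Sup (CoarseOK 4) G

/-- subdivided chains -/
noncomputable def CoarseData.ck (E : CoarseData) (m : ℕ) : ℕ → Ch ℍ[ℝ]
  | 0 => SdI 1 m E.c0
  | 1 => SdI 2 m E.Ex + SdI 2 m E.Ey
  | 2 => SdI 3 m E.F1 + SdI 3 m E.F2
  | _ => SdI 4 m E.G

theorem CoarseData.ck_fine (E : CoarseData) (m : ℕ) (ε : ℝ)
    (hm : (3 / 4 : ℝ) ^ m * 2 ≤ ε) (k : ℕ) (hk : k ≤ 3) : Sup (Fine (k + 1) ε) (E.ck m k) := by
  interval_cases k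
  · exact Sup_fine (by norm_num) E.s0 m ε hm
  · exact Sup.add (Sup_fine (by norm_num) E.sx m ε hm) (Sup_fine (by norm_num) E.sy m ε hm)
  · exact Sup.add (Sup_fine (by norm_num) E.s1 m ε hm) (Sup_fine (by norm_num) E.s2 m ε hm)
  · exact Sup_fine (by norm_num) E.s3 m ε hm

theorem CoarseData.ck_rel0 (E : CoarseData) (m : ℕ) (κ : ℍ[ℝ] → Fin 10) (x : ℍ[ℝ]) :
    bd (mp (fr κ x) (E.ck m 0)) = sg [] := by
  rw [← mp_bd, show bd (E.ck m 0) = sg [] from (E.rel.sub m).b0, mp_sg, List.map_nil]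

theorem CoarseData.ck_rel (E : CoarseData) (m : ℕ) {κ : ℍ[ℝ] → Fin 10} {δ : ℝ}
    (h : GoodCol κ δ) (x : ℍ[ℝ]) (k : ℕ) (hk : k < 3) :
    bd (mp (fr κ x) (E.ck m (k + 1))) =
      mp (fr κ x) (E.ck m k) + mp s12 (mp (fr κ x) (E.ck m k)) := by
  have hX := fr_Xm h.scal x
  have hY := fr_Ym h.scal x
  interval_cases k
  · exact frame_rel1 hX hY (E.rel.sub m)
  · exact frame_rel2 hX hY (E.rel.sub m)
  · exact frame_rel3 hX hY (E.rel.sub m)

/-- construction of the chain data -/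
theorem exists_chainData (E : CoarseData) {κ : ℍ[ℝ] → Fin 10} {δ η : ℝ} (h : GoodCol κ δ)
    (hη0 : 0 < η) (hη : η < δ) : Nonempty (ChainData κ η) := by
  obtain ⟨m, hm⟩ : ∃ m : ℕ, (3 / 4 : ℝ) ^ m * 2 ≤ η / 8 := by
    obtain ⟨m, hm⟩ := exists_pow_lt_of_lt_one (show (0 : ℝ) < η / 16 by positivity)
      (show (3 / 4 : ℝ) < 1 by norm_num)
    exact ⟨m, by linarith⟩
  have fine := E.ck_fine m (η / 8) hm
  refine ⟨{
    D := fun x k => A3 (mp (fr κ x) (E.ck m k))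
    b0 := fun x _ => bd_A3_nil _ (E.ck_rel0 m κ x)
    bs := fun x _ k hk => bd_A3_of _ _ (E.ck_rel m h x k hk)
    bs' := fun x _ k hk => bd_A3_of' _ _ (E.ck_rel m h x k hk)
    sym := fun x _ => by rw [s23_A3_eq]
    adm := ?_
    avoid := ?_
    ρ := η / 2
    ρpos := by positivity
    hom := ?_ }⟩
  · intro x hx k hk
    refine Sup_A3 ?_ ?_
    · rintro l ⟨h1, h2, h3⟩
      exact ⟨by simpa using h1, h2.rot, h3.rot⟩
    · refine Sup.mp (fine k hk) ?_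
      rintro l ⟨h1, h2, h3⟩
      exact ⟨by simpa using h1, Dj_frames h (by linarith) hx h2 h3,
        InN_frames (by linarith) hx h2 h3⟩
  · intro T w hw1 hw2 t ht k hk
    refine Sup_A3 ?_ ?_
    · rintro l ⟨h1, h2, h3⟩
      rw [cs1_rot, cs2_rot, cs3_rot]
      exact ⟨h2, h3, h1⟩
    · refine Sup.mp (fine k hk) ?_
      rintro l ⟨h1, h2, h3⟩
      obtain ⟨a, b, c⟩ := frames_disj h hη ⟨hw1, hw2⟩ ht h2
      exact ⟨Finset.subset_compl_iff_disjoint_right.2 a,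
        Finset.subset_compl_iff_disjoint_right.2 b, Finset.subset_compl_iff_disjoint_right.2 c⟩
  · intro x x' hx hx' hxx
    refine ⟨_, _, frame_hom_A3 (fr_Xm h.scal x) (fr_Ym h.scal x) (fr_Xm h.scal x')
      (fr_Ym h.scal x') (E.rel.sub m), ?_⟩
    have hP : Sup (fun l => l.length = 4 ∧ InN (Nv κ η) l)
        (pr (fr κ x) (fr κ x') (SdI 3 m E.F1 + SdI 3 m E.F2)) := by
      refine Sup.mono (Sup_pr_chain (fr κ x) (fr κ x') _ _ 3 (fine 2 (by norm_num))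
        fun l hl => hl.1) ?_
      rintro l ⟨h1, l0, ⟨h2, h3, h4⟩, h5⟩
      have hb : ‖x - x'‖ + 4 * (η / 8) ≤ η := by linarith
      exact ⟨h1, Nv_two_cs1 hx hx' hb h3 h4 h5, Nv_two_cs2 hx hx' hb h3 h4 h5,
        Nv_two_cs3 hx hx' hb h3 h4 h5⟩
    refine Sup.mono (Sup_A3 (P := fun l => l.length = 4 ∧ InN (Nv κ η) l) ?_ hP) ?_
    · rintro l ⟨h1, h2⟩
      exact ⟨by simpa using h1, h2.rot⟩
    · rintro l ⟨h1, h2⟩
      exact ⟨h1, h2.n1⟩

theorem no_good_of (hsplit : SplitStmt) (hcore : CoreStmt) (E : CoarseData) (κ : ℍ[ℝ] → Fin 10) (δ : ℝ) : ¬ GoodCol κ δ := by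
  intro h
  have hδ := h.pos
  obtain ⟨X⟩ := exists_chainData E h (η := δ / 2) (by positivity) (by linarith)
  exact end_contra hsplit hcore h (by positivity) (by linarith) X

theorem SP_ok {n : ℕ} (hn : n ≤ 4) {l : List ℍ[ℝ]} (h : Coarse.SP n l) : CoarseOK n l :=
  ⟨h.1, h.acute.unit, fun _ hv => Coarse.SP.norm_ge hn h hv⟩

/-- the concrete coarse data -/
noncomputable def coarseData : CoarseData where
  c0 := sg [1]
  Ex := Coarse.Ex (fun v => Xm v) (1 : ℍ[ℝ])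
  Ey := Coarse.Ey (fun v => Ym v) (1 : ℍ[ℝ])
  F1 := Coarse.F1 (fun v => Xm v) (fun v => Ym v) (1 : ℍ[ℝ])
  F2 := Coarse.F2 (fun v => Xm v) (fun v => Ym v) (1 : ℍ[ℝ])
  G := Coarse.G (fun v => Xm v) (fun v => Ym v) (1 : ℍ[ℝ])
  rel := by
    refine ⟨?_, Coarse.bdEx, Coarse.bdEy, Coarse.bdF1, Coarse.bdF2, Coarse.bdG⟩
    rw [bd_cons]; simp
  s0 := by
    refine Sup.sg ⟨rfl, ?_, ?_⟩
    · intro v hv
      simp only [List.mem_cons, List.not_mem_nil, or_false] at hv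
      rw [hv, norm_one]
    · intro v hv
      have : {w : ℍ[ℝ] | w ∈ [(1 : ℍ[ℝ])]} = {1} := by ext; simp
      rw [this, convexHull_singleton, Set.mem_singleton_iff] at hv
      rw [hv, norm_one]; norm_num
  sx := Coarse.Ex_sup.mono fun _ h => SP_ok (by norm_num) h
  sy := Coarse.Ey_sup.mono fun _ h => SP_ok (by norm_num) h
  s1 := Coarse.F1_sup.mono fun _ h => SP_ok (by norm_num) h
  s2 := Coarse.F2_sup.mono fun _ h => SP_ok (by norm_num) h
  s3 := Coarse.G_sup.mono fun _ h => SP_ok (by norm_num) h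

theorem no_good (hsplit : SplitStmt) (hcore : CoreStmt) (κ : ℍ[ℝ] → Fin 10) (δ : ℝ) :
    ¬ GoodCol κ δ := no_good_of hsplit hcore coarseData κ δ

theorem main_theorem (hsplit : SplitStmt) (hcore : CoreStmt) :
    ∃ S : Set (EuclideanSpace ℝ (Fin 9)), Bornology.IsBounded S ∧ S.Nontrivial ∧
      ∀ c : EuclideanSpace ℝ (Fin 9) → Fin 10, ∃ i : Fin 10,
        Metric.diam S ≤ Metric.diam (S ∩ c ⁻¹' {i}) := reduction (no_good hsplit hcore)

end Crest.Agent.R050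
end

-- ▼ part R050/Split10

/-!
# Transfer of the split lemma from `Fin 6` to the complement of a 4-set in `Fin 10`
-/

namespace Crest.Agent.R050

/-- apply a map of colours to a frame of colours -/
def frm {C C' : Type*} (g : C → C') (v : Fr C) : Fr C' := (g v.1, g v.2.1, g v.2.2)

theorem frm_s12 {C C' : Type*} (g : C → C') : frm g ∘ s12 = s12 ∘ frm g := rfl
theorem frm_s23 {C C' : Type*} (g : C → C') : frm g ∘ s23 = s23 ∘ frm g := rfl

section
variable {C C' : Type*} [DecidableEq C] [DecidableEq C']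

theorem cs1_frm (g : C → C') (l : List (Fr C)) : cs1 (l.map (frm g)) = (cs1 l).image g := by
  ext a; simp [cs1, frm]

theorem cs2_frm (g : C → C') (l : List (Fr C)) : cs2 (l.map (frm g)) = (cs2 l).image g := by
  ext a
  simp only [cs2, List.mem_toFinset, List.mem_map, Finset.mem_image, frm]
  constructor
  · rintro ⟨b, ⟨v, hv, rfl⟩, rfl⟩
    exact ⟨_, ⟨v, hv, rfl⟩, rfl⟩
  · rintro ⟨b, ⟨v, hv, rfl⟩, rfl⟩
    exact ⟨_, ⟨v, hv, rfl⟩, rfl⟩

theorem cs3_frm (g : C → C') (l : List (Fr C)) : cs3 (l.map (frm g)) = (cs3 l).image g := by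
  ext a
  simp only [cs3, List.mem_toFinset, List.mem_map, Finset.mem_image, frm]
  constructor
  · rintro ⟨b, ⟨v, hv, rfl⟩, rfl⟩
    exact ⟨_, ⟨v, hv, rfl⟩, rfl⟩
  · rintro ⟨b, ⟨v, hv, rfl⟩, rfl⟩
    exact ⟨_, ⟨v, hv, rfl⟩, rfl⟩

omit [DecidableEq C] in
theorem disj_image {g : C → C'} {U s t : Finset C} (hg : Set.InjOn g U) (hs : s ⊆ U) (ht : t ⊆ U)
    (h : Disjoint s t) : Disjoint (s.image g) (t.image g) := by
  rw [Finset.disjoint_left]
  intro a ha hb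
  obtain ⟨x, hx, hxa⟩ := Finset.mem_image.1 ha
  obtain ⟨y, hy, hya⟩ := Finset.mem_image.1 hb
  have : x = y := hg (hs hx) (ht hy) (hxa.trans hya.symm)
  subst this
  exact (Finset.disjoint_left.1 h) hx hy

theorem sup_frm {g : C → C'} {U : Finset C} (hg : Set.InjOn g U) {n : ℕ} {D : Ch (Fr C)}
    (a : Sup (fun l => l.length = n ∧ Dj l ∧ Sm l ∧ cs1 l ⊆ U ∧ cs2 l ⊆ U ∧ cs3 l ⊆ U) D) :
    Sup (fun l => l.length = n ∧ Dj l ∧ Sm l) (mp (frm g) D) := by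
  refine Sup.mp a ?_
  rintro l ⟨h1, h2, h3, h4, h5, h6⟩
  refine ⟨by simpa using h1, ⟨?_, ?_, ?_⟩, ⟨?_, ?_, ?_⟩⟩
  · rw [cs1_frm, cs2_frm]; exact disj_image hg h4 h5 h2.d12
  · rw [cs1_frm, cs3_frm]; exact disj_image hg h4 h6 h2.d13
  · rw [cs2_frm, cs3_frm]; exact disj_image hg h5 h6 h2.d23
  · rw [cs1_frm]; exact Finset.card_image_le.trans h3.c1
  · rw [cs2_frm]; exact Finset.card_image_le.trans h3.c2
  · rw [cs3_frm]; exact Finset.card_image_le.trans h3.c3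

theorem chi_frm {g : C → C'} {U K : Finset C} (hg : Set.InjOn g U) (hK : K ⊆ U) {l : List (Fr C)}
    (hl : cs1 l ⊆ U) : chi (K.image g) (l.map (frm g)) = chi K l := by
  have hc : (K.image g).card = K.card := Finset.card_image_of_injOn (hg.mono (by exact_mod_cast hK))
  have he : cs1 (l.map (frm g)) = K.image g ↔ cs1 l = K := by
    rw [cs1_frm]
    constructor
    · intro h
      ext a
      constructor
      · intro ha
        have : g a ∈ K.image g := by rw [← h]; exact Finset.mem_image_of_mem g ha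
        obtain ⟨b, hb, hba⟩ := Finset.mem_image.1 this
        have : b = a := hg (hK hb) (hl ha) hba
        rwa [← this]
      · intro ha
        have : g a ∈ (cs1 l).image g := by rw [h]; exact Finset.mem_image_of_mem g ha
        obtain ⟨b, hb, hba⟩ := Finset.mem_image.1 this
        have : b = a := hg (hl hb) (hK ha) hba
        rwa [← this]
    · intro h; rw [h]
  unfold chi
  rw [hc, List.length_map, if_congr (and_congr Iff.rfl he) rfl rfl]

end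

/-- a colour map which is injective on `Tᶜ`, sending `K` onto `{0,2,4}` and the rest of `Tᶜ` onto
`{1,3,5}` -/
theorem exists_recolor (T K : Finset (Fin 10)) (hT : T.card = 4) (hK : K.card = 3)
    (hKT : K ⊆ Tᶜ) : ∃ g : Fin 10 → Fin 6, Set.InjOn g (Tᶜ : Finset (Fin 10)) ∧
      K.image g = {0, 2, 4} ∧ (Tᶜ \ K).image g = {1, 3, 5} := by
  have c2 : (Tᶜ \ K).card = 3 := by
    rw [Finset.card_sdiff_of_subset hKT, Finset.card_compl, hT, hK]; rfl
  have e1 : Nonempty (K ≃ ({0, 2, 4} : Finset (Fin 6))) :=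
    ⟨Finset.equivOfCardEq (by rw [hK]; rfl)⟩
  have e2 : Nonempty ((Tᶜ \ K : Finset (Fin 10)) ≃ ({1, 3, 5} : Finset (Fin 6))) :=
    ⟨Finset.equivOfCardEq (by rw [c2]; rfl)⟩
  obtain ⟨e1⟩ := e1
  obtain ⟨e2⟩ := e2
  let g : Fin 10 → Fin 6 := fun x =>
    if h : x ∈ K then (e1 ⟨x, h⟩ : Fin 6) else
      if h' : x ∈ Tᶜ \ K then (e2 ⟨x, h'⟩ : Fin 6) else 0
  have g1 : ∀ x (h : x ∈ K), g x = (e1 ⟨x, h⟩ : Fin 6) := fun x h => by simp only [g, dif_pos h]
  have g2 : ∀ x (h : x ∈ Tᶜ \ K), g x = (e2 ⟨x, h⟩ : Fin 6) := fun x h => by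
    simp only [g, dif_neg (Finset.mem_sdiff.1 h).2, dif_pos h]
  have m1 : ∀ x, x ∈ K → g x ∈ ({0, 2, 4} : Finset (Fin 6)) := fun x h => by
    rw [g1 x h]; exact (e1 ⟨x, h⟩).2
  have m2 : ∀ x, x ∈ Tᶜ \ K → g x ∈ ({1, 3, 5} : Finset (Fin 6)) := fun x h => by
    rw [g2 x h]; exact (e2 ⟨x, h⟩).2
  have dd : Disjoint ({0, 2, 4} : Finset (Fin 6)) {1, 3, 5} := by decide
  refine ⟨g, ?_, ?_, ?_⟩
  · intro x hx y hy hxy
    have hx' : x ∈ Tᶜ := by exact_mod_cast hx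
    have hy' : y ∈ Tᶜ := by exact_mod_cast hy
    by_cases hxK : x ∈ K
    · by_cases hyK : y ∈ K
      · rw [g1 x hxK, g1 y hyK] at hxy
        have := e1.injective (Subtype.ext hxy)
        simpa using this
      · exfalso
        exact (Finset.disjoint_left.1 dd) (m1 x hxK)
          (by rw [hxy]; exact m2 y (Finset.mem_sdiff.2 ⟨hy', hyK⟩))
    · by_cases hyK : y ∈ K
      · exfalso
        exact (Finset.disjoint_left.1 dd) (m1 y hyK)
          (by rw [← hxy]; exact m2 x (Finset.mem_sdiff.2 ⟨hx', hxK⟩))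
      · rw [g2 x (Finset.mem_sdiff.2 ⟨hx', hxK⟩), g2 y (Finset.mem_sdiff.2 ⟨hy', hyK⟩)] at hxy
        have := e2.injective (Subtype.ext hxy)
        simpa using this
  · ext a
    constructor
    · intro ha
      obtain ⟨x, hx, rfl⟩ := Finset.mem_image.1 ha
      exact m1 x hx
    · intro ha
      refine Finset.mem_image.2 ⟨(e1.symm ⟨a, ha⟩ : Fin 10), (e1.symm ⟨a, ha⟩).2, ?_⟩
      rw [g1 _ (e1.symm ⟨a, ha⟩).2]
      simp
  · ext a
    constructor
    · intro ha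
      obtain ⟨x, hx, rfl⟩ := Finset.mem_image.1 ha
      exact m2 x hx
    · intro ha
      refine Finset.mem_image.2 ⟨(e2.symm ⟨a, ha⟩ : Fin 10), (e2.symm ⟨a, ha⟩).2, ?_⟩
      rw [g2 _ (e2.symm ⟨a, ha⟩).2]
      simp

theorem split10 (T K : Finset (Fin 10)) (hT : T.card = 4) (hK : K.card = 3) (hKT : K ⊆ Tᶜ)
    (D0 D1 D2 D3 : Ch (Fr (Fin 10))) (h0 : bd D0 = sg []) (h1 : bd D1 = D0 + mp s12 D0)
    (h2 : bd D2 = D1 + mp s12 D1) (h3 : bd D3 = D2 + mp s12 D2) (h3' : bd D3 = D2 + mp s23 D2)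
    (hs : D3 + mp s12 D3 = D3 + mp s23 D3)
    (a0 : Sup (fun l => l.length = 1 ∧ Dj l ∧ Sm l ∧ cs1 l ⊆ Tᶜ ∧ cs2 l ⊆ Tᶜ ∧ cs3 l ⊆ Tᶜ) D0)
    (a1 : Sup (fun l => l.length = 2 ∧ Dj l ∧ Sm l ∧ cs1 l ⊆ Tᶜ ∧ cs2 l ⊆ Tᶜ ∧ cs3 l ⊆ Tᶜ) D1)
    (a2 : Sup (fun l => l.length = 3 ∧ Dj l ∧ Sm l ∧ cs1 l ⊆ Tᶜ ∧ cs2 l ⊆ Tᶜ ∧ cs3 l ⊆ Tᶜ) D2)
    (a3 : Sup (fun l => l.length = 4 ∧ Dj l ∧ Sm l ∧ cs1 l ⊆ Tᶜ ∧ cs2 l ⊆ Tᶜ ∧ cs3 l ⊆ Tᶜ) D3) :
    ev (chi K) D2 + ev (chi (Tᶜ \ K)) D2 = 1 := by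
  obtain ⟨g, hg, gK, gK'⟩ := exists_recolor T K hT hK hKT
  have m12 : ∀ c : Ch (Fr (Fin 10)), mp (frm g) (mp s12 c) = mp s12 (mp (frm g) c) := fun c => by
    rw [mp_mp, mp_mp, frm_s12]
  have m23 : ∀ c : Ch (Fr (Fin 10)), mp (frm g) (mp s23 c) = mp s23 (mp (frm g) c) := fun c => by
    rw [mp_mp, mp_mp, frm_s23]
  have key := split (mp (frm g) D0) (mp (frm g) D1) (mp (frm g) D2) (mp (frm g) D3)
    (by rw [← mp_bd, h0, mp_sg]; rfl)
    (by rw [← mp_bd, h1, map_add, m12])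
    (by rw [← mp_bd, h2, map_add, m12])
    (by rw [← mp_bd, h3, map_add, m12])
    (by rw [← mp_bd, h3', map_add, m23])
    (by rw [← m12, ← m23, ← map_add, ← map_add, hs])
    (sup_frm hg a0) (sup_frm hg a1) (sup_frm hg a2) (sup_frm hg a3)
  rw [← gK, ← gK', ev_mp, ev_mp] at key
  rw [← key]
  congr 1
  · exact (ev_congr a2 fun l hl => chi_frm hg hKT hl.2.2.2.1).symm
  · exact (ev_congr a2 fun l hl => chi_frm hg Finset.sdiff_subset hl.2.2.2.1).symm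

end Crest.Agent.R050
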